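import Vale.Agent.P273.H95.Wall
import Vale.Agent.P273.H93.Reg
import Vale.Agent.P273.H837.Mob
import Vale.Agent.P273.H503.Top

/-!
# P273: the values of the forms of the regions on the strata

`ExtOf F X`: the forms `X.H R S` of the regions are, where the gaps in `B` vanish, the values of `F`
on the families of the strata.
-/

noncomputable section

namespace Vale.Agent.P273.H728

open Set Sum H183 H837 H93 H95 H503

/-- The region of a region with gaps. -/
def rg (T : RB) : Region := ⟨T.pl, T.rk, T.core, T.inj, T.lt⟩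

/-- The label of the component number `r` of the neck `k` (the labels are those of `RB.comp`): the
number `0` is the core P, the number `card (B k)` the core P'. -/
def lb (T : RB) (k : Fin 3) (r : ℕ) : Bool ⊕ (Fin 3 × ℕ) :=
  if r = 0 then inl false else if r = (T.B k).card then inl true else inr (k, r)

/-- The position of the half-edge `((k, i), s)`: the edge `(k, i)` joins the components `i` (side
`true`) and `i + 1` (side `false`) of the neck `k`. -/
def hz (T : RB) (k : Fin 3) (i : ℕ) (s : Bool) : OnePoint ℂ :=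
  if s then (if i = 0 then (ctr k : ℂ) else (0 : ℂ))
  else (if i + 1 = (T.B k).card then (ctr k : ℂ) else OnePoint.infty)

/-- The position of the mark `x`. On the cores it is the coordinate `x` of the plane (`1/x` if
`S x`); on a free component it is the product of the gaps of this component before the mark. -/
def mz (T : RB) (S : Mk → Bool) (p : (rg T).Sp) (x : Mk) : OnePoint ℂ :=
  match T.comp x with
  | inl _ => if S x then inf ((rg T).pos p x) else ((rg T).pos p x : ℂ)
  | inr (k, _) => ((∏ g : Fin ((rg T).n k + 1),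
      if (g : ℕ) ≤ T.rk x ∧ ∀ b ∈ T.B k, b ≤ T.rk x → b < (g : ℕ) then p.1 ⟨k, g⟩ else 1 : ℂ) :
      OnePoint ℂ)

/-- `h` is the graph of the region with gaps `T`: `nm` gives the labels of the vertices, and `ge` the
neck and the number of an edge. -/
structure Lab {V E : Type} (T : RB) (h : (E × Bool) ⊕ Mk → V) (nm : V → Bool ⊕ (Fin 3 × ℕ))
    (ge : E → Fin 3 × ℕ) : Prop where
  nm_inj : Function.Injective nm
  ge_inj : Function.Injective ge
  ge_ran : ∀ k i, (∃ e, ge e = (k, i)) ↔ i < (T.B k).card
  edge : ∀ e s, nm (h (inl (e, s))) = lb T (ge e).1 (if s then (ge e).2 else (ge e).2 + 1)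
  leg : ∀ x, nm (h (inr x)) = T.comp x

/-- The positions of the half-edges and legs. -/
def zz {E : Type} (T : RB) (S : Mk → Bool) (ge : E → Fin 3 × ℕ) (p : (rg T).Sp) :
    (E × Bool) ⊕ Mk → OnePoint ℂ :=
  Sum.elim (fun y => hz T (ge y.1).1 (ge y.1).2 y.2) (mz T S p)

/-- **The values of the forms of the regions on the strata.** For every region with gaps `T`, charts
`S` of the core marks, graph `h` of `T`, stable family `C` of the stratum of `h` in the coordinates
`c`, and every holomorphic map `φ` from an open part `U` of the stratum to the region which hits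
exactly the gaps of `B`, such that the positions on the stratum and in the region correspond (`A v b`
is the change of coordinates on the component `v`), the form `F` on `C` is the pullback of `H`. -/
def ExtOf (F : Form16) (X : Ext) : Prop :=
  ∀ (T : RB) (S : Mk → Bool), (∀ x, S x = true → (T.pl x).isRight = true) →
    ∀ (V E : Type) [Finite V] [Finite E] (h : (E × Bool) ⊕ Mk → V) (nm : V → Bool ⊕ (Fin 3 × ℕ))
      (ge : E → Fin 3 × ℕ), Lab T h nm ge →
    ∀ (m : ℕ) (c : Coord h m) (C : Fam Mk m), C.IsStable → c.IsGlued C →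
    ∀ (U : Set (Fin m → ℂ)) (φ : (Fin m → ℂ) → (rg T).Sp)
      (A : V → (Fin m → ℂ) → Matrix (Fin 2) (Fin 2) ℂ), IsOpen U → U ⊆ c.base →
    (∀ b ∈ U, AnalyticAt ℂ φ b) → (∀ b ∈ U, φ b ∈ (rg T).dom S) →
    (∀ b ∈ U, ∀ g : (rg T).Gap, (φ b).1 g = 0 ↔ (g.2 : ℕ) ∈ T.B g.1) →
    (∀ b ∈ U, ∀ v i j, AnalyticAt ℂ (fun b => A v b i j) b) → (∀ b ∈ U, ∀ v, (A v b).det ≠ 0) →
    (∀ b ∈ U, ∀ y, pt b (c.c y) = mob (A (h y) b) (zz T S ge (φ b) y)) →
    ∀ b ∈ U, F m C b = (X.H (rg T) S (φ b)).compContinuousLinearMap (fderiv ℝ φ b)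

end Vale.Agent.P273.H728

end
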