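import Vale.Agent.P273.H728.CoordE

/-!
# P273, LIM-V: the base of the coordinates
-/

noncomputable section

namespace Vale.Agent.P273.H728

open Set Sum H183 H837 H93

theorem pt_inl_inj {m : ℕ} (b : Fin m → ℂ) {i j : Fin 3} (h : pt b (inl i) = pt b (inl j)) :
    i = j := by
  fin_cases i <;> fin_cases j <;> simp_all [pt]

theorem cc_inr {p q : ℕ} {σ : Bool → Equiv.Perm (Fin 7)}
    {y : ((Fin 3 ⊕ Fin 6) × Bool) ⊕ (Fin 7 × Bool)} {j : Fin 8} (h : cc p q σ y = inr j) :
    ∃ i b, y = inr (i, b) ∧
      ((σ b i = 6 ∧ j = if b then 6 else 7) ∨ (σ b i ≠ 6 ∧ b = false ∧ j.1 = (σ b i).1)) := by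
  rcases y with y | ⟨i, b⟩
  · simp [cc] at h
  · refine ⟨i, b, rfl, ?_⟩
    have h2 : cL b (σ b i) = inr j := h
    unfold cL at h2
    by_cases h3 : σ b i = 6
    · rw [if_pos h3] at h2
      exact Or.inl ⟨h3, (inr.inj h2).symm⟩
    · rw [if_neg h3] at h2
      cases b
      · refine Or.inr ⟨h3, rfl, ?_⟩
        rw [if_neg (by simp)] at h2
        rw [← inr.inj h2]
        rfl
      · simp at h2

theorem base_coordE (e : Bool → Bool) (p q : Fin 7) (h : p ≤ q) (σ : Bool → Equiv.Perm (Fin 7)) :
    (coordE e p q h σ).base = baseE e := by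
  set c := coordE e p q h σ with hc
  have hcc : c.c = cc p q σ := rfl
  ext b
  constructor
  · intro hb
    have key : ∀ (j : Fin 8) (i : Fin 3), pt b (inr j) ≠ pt b (inl i) := by
      intro j i hji
      obtain ⟨y, hy, -⟩ := c.coord j
      obtain ⟨y', ⟨hy1, hy2⟩, -⟩ := c.const (thE e p q σ y) i
      have := hb y y' hy1.symm (by rw [hy, hy2]; exact hji)
      rw [this, hy2] at hy
      exact absurd hy (by simp)
    refine ⟨fun j => ⟨fun h0 => key j 0 ?_, fun h0 => key j 1 ?_⟩, fun he h67 => ?_⟩
    · simp [pt, h0]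
    · simp [pt, h0]
    · have h1 := hb (inr ((σ true).symm 6, true)) (inr ((σ false).symm 6, false)) (by
        change lg e true (σ true ((σ true).symm 6)) = lg e false (σ false ((σ false).symm 6))
        rw [Equiv.apply_symm_apply, Equiv.apply_symm_apply, lg_six, lg_six, he]) (by
        change pt b (cL true (σ true ((σ true).symm 6))) = pt b (cL false (σ false ((σ false).symm 6)))
        rw [Equiv.apply_symm_apply, Equiv.apply_symm_apply]
        simp [cL, pt, h67])
      have h2 := congrArg Prod.snd (inr.inj h1)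
      exact absurd h2 (by simp)
  · rintro ⟨hb1, hb2⟩ y y' hy hyy
    rcases hy1 : c.c y with i | j <;> rcases hy2 : c.c y' with i' | j'
    · rw [hy1, hy2] at hyy
      have := pt_inl_inj b hyy
      subst this
      obtain ⟨z, -, hz⟩ := c.const (thE e p q σ y) i
      rw [hz y ⟨rfl, hy1⟩, hz y' ⟨hy.symm, hy2⟩]
    · exfalso
      rw [hy1, hy2] at hyy
      have h1 := (hb1 j').1
      have h2 := (hb1 j').2
      fin_cases i
      · exact h1 (by simpa [pt] using hyy.symm)
      · exact h2 (by simpa [pt] using hyy.symm)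
      · simp [pt] at hyy
    · exfalso
      rw [hy1, hy2] at hyy
      have h1 := (hb1 j).1
      have h2 := (hb1 j).2
      fin_cases i'
      · exact h1 (by simpa [pt] using hyy)
      · exact h2 (by simpa [pt] using hyy)
      · simp [pt] at hyy
    · rw [hy1, hy2] at hyy
      have h5 : b j = b j' := by simpa [pt] using hyy
      by_cases hjj : j = j'
      · subst hjj
        obtain ⟨z, -, hz⟩ := c.coord j
        rw [hz y hy1, hz y' hy2]
      · exfalso
        obtain ⟨i, s, rfl, h6⟩ := cc_inr (hcc ▸ hy1 : cc p q σ y = inr j)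
        obtain ⟨i', s', rfl, h7⟩ := cc_inr (hcc ▸ hy2 : cc p q σ y' = inr j')
        have h8 : lg e s (σ s i) = lg e s' (σ s' i') := hy
        rcases h6 with ⟨h6, h6'⟩ | ⟨h6, hs, h6'⟩ <;> rcases h7 with ⟨h7, h7'⟩ | ⟨h7, hs', h7'⟩
        · rw [h6, h7, lg_six, lg_six] at h8
          have hss : s ≠ s' := fun hss => hjj (by rw [h6', h7', hss])
          have he : e true = e false := by
            have : e s = e s' := by
              cases h9 : e s <;> cases h10 : e s' <;> simp_all
            cases s <;> cases s' <;> simp_all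
          have := hb2 he
          cases s <;> cases s' <;> simp_all
        · rw [h6, lg_six, lg_ne _ _ _ h7] at h8
          cases h9 : e s <;> rw [h9] at h8 <;> simp at h8
          exact h7 h8.symm
        · rw [h7, lg_six, lg_ne _ _ _ h6] at h8
          cases h9 : e s' <;> rw [h9] at h8 <;> simp at h8
          exact h6 h8
        · rw [lg_ne _ _ _ h6, lg_ne _ _ _ h7] at h8
          have := Option.some.inj h8
          exact hjj (Fin.ext (by rw [h6', h7', this]))

end Vale.Agent.P273.H728

end
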