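import Vale.Agent.P273.H728.CellF
import Vale.Agent.P273.H720.Integr

/-!
# P273: 720's `V1` is proved
-/

namespace Vale.Agent.P273.H728

theorem v1 : H720.V1 := fun _ _ hX p q _ hp hq σ e _ hC hg c _ _ h =>
  cell_F hX p q hp hq σ e hC hg c h

end Vale.Agent.P273.H728
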