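import Vale.Agent.P273.H728.CellF
import Vale.Agent.P273.H837.Top2

/-!
# P273, LIM-V / LIM-INTEGR: absolute convergence and the value of the integral over a stratum
-/

noncomputable section

namespace Vale.Agent.P273.H728

open Set Sum Filter MeasureTheory H183 H837 H93 H95 H503 H732

/-- **Integration over the cells.** -/
theorem cells_F {F : Form16} {X : Ext} (hX : ExtOf F X) (p q : Fin 7) (hp : p.1 ≤ q.1)
    (hq : q.1 ≤ 6) (σ : Bool → Equiv.Perm (Fin 7)) (e : Bool → Bool) {C : Fam Lg14 8}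
    (hC : C.IsStable) (hg : (coordE e p q hp σ).IsGlued C) :
    IntegrableOn (dens (F 8 C)) (coordE e p q hp σ).base ∧
      ∫ b in (coordE e p q hp σ).base, dens (F 8 C) b =
        ∑ c : Cell with c.Ok (sm e), ∫ ζ in D0.Om (sm e) c, val X hp hq σ e c ζ := by
  have hbase : (coordE e p q hp σ).base = bs (sm e) := by
    rw [base_coordE]
    ext b
    simp only [baseE, bs, sm, decide_eq_true_eq, mem_setOf_eq]
  rw [hbase]
  have h1 : ∀ c : Cell, EqOn (fun ζ => |(fderiv ℝ (D0.kap (sm e) c) ζ).det| •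
      dens (F 8 C) (D0.kap (sm e) c ζ)) (val X hp hq σ e c) (D0.Om (sm e) c) :=
    fun c ζ hζ => cell_F hX p q hp hq σ e hC hg c hζ
  have h2 := D0.cells_int (sm e) (dens (F 8 C)) fun c _ =>
    (H720.val_int hp hq σ e X (sm e)).congr_fun (h1 c).symm TD.isOpen_Om.measurableSet
  refine ⟨h2.1, h2.2.trans (Finset.sum_congr rfl fun c _ => ?_)⟩
  exact setIntegral_congr_fun TD.isOpen_Om.measurableSet (h1 c)

theorem exists_C (p q : Fin 7) (hp : p.1 ≤ q.1) (σ : Bool → Equiv.Perm (Fin 7))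
    (e : Bool → Bool) : ∃ C : Fam Lg14 8, C.IsStable ∧ (coordE e p q hp σ).IsGlued C :=
  H768.exists_isGlued (coordE e p q hp σ) (H768.thE_loop e p q σ) (H768.thE_conn e σ p q)

/-- **Absolute convergence** (the input `Integr` of the top of the chain). -/
theorem integr (hE : ∀ F : Form16, IsClosedForm Lg14 (8 * 2) F → ∃ X : Ext, ExtOf F X) :
    H503.Integr := by
  intro F hF e p q σ hp hq
  obtain ⟨X, hX⟩ := hE F hF
  obtain ⟨C, hC, hg⟩ := exists_C ⟨p, by omega⟩ ⟨q, by omega⟩ hp σ e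
  exact ⟨_, C, hC, hg, (cells_F hX ⟨p, by omega⟩ ⟨q, by omega⟩ hp hq σ e hC hg).1⟩

/-- **The integral over a stratum is the sum over the cells.** -/
theorem str_cells {F : Form16} (hF : IsClosedForm Lg14 (8 * 2) F) {X : Ext} (hX : ExtOf F X)
    {p q : ℕ} (hp : p ≤ q) (hq : q ≤ 6) (σ : Bool → Equiv.Perm (Fin 7)) (e : Bool → Bool) :
    str F (thE e p q σ) =
      ∑ c : Cell with c.Ok (sm e), ∫ ζ in D0.Om (sm e) c, val X hp hq σ e c ζ := by
  obtain ⟨C, hC, hg⟩ := exists_C ⟨p, by omega⟩ ⟨q, by omega⟩ hp σ e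
  rw [← (cells_F hX ⟨p, by omega⟩ ⟨q, by omega⟩ hp hq σ e hC hg).2]
  exact (Top2.str_eq' hF (Top2.noLoop_thE e p q σ) _ C hC hg).symm

end Vale.Agent.P273.H728

end
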