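import Vale.Agent.P273.H573.SumDefs
import Vale.Agent.P273.H562.RegCore
import Vale.Agent.P273.H92.Polar

/-!
# P273, LIM, step 6: the surviving integral in polar coordinates
-/

noncomputable section

namespace Vale.Agent.P273.H728

open Set Filter MeasureTheory H681 H95 H732 H973 H562 H573

theorem measurableSet_zone0 (b : Bool) : MeasurableSet (zone0 b) := by
  cases b
  · have : zone0 false = Metric.closedBall 0 11 ∩ ⋂ k, {x : ℂ | 1 / 32 ≤ ‖x - ctr k‖} := by
      ext x
      simp [zone0]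
    rw [this]
    refine Metric.isClosed_closedBall.measurableSet.inter (MeasurableSet.iInter fun k => ?_)
    exact measurableSet_le measurable_const (by fun_prop)
  · have : zone0 true = {0}ᶜ ∩ Metric.ball 0 (1 / 11) := by
      ext x
      simp [zone0]
    rw [this]
    exact (measurableSet_singleton _).compl.inter Metric.isOpen_ball.measurableSet

section

variable {G Y : Type} [Fintype G] [MeasureSpace Y]

/-- a hyperplane of the second block is a null set -/
theorem null_phi (a : ℝ) :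
    volume {z : ((G → ℝ) × (G → ℝ)) × Y | ∃ g, z.1.2 g = a} = 0 := by
  have h : {z : ((G → ℝ) × (G → ℝ)) × Y | ∃ g, z.1.2 g = a} =
      ⋃ g, (fun z : ((G → ℝ) × (G → ℝ)) × Y => z.1) ⁻¹'
        ((fun z : (G → ℝ) × (G → ℝ) => z.2) ⁻¹' ((fun w : G → ℝ => w g) ⁻¹' {a})) := by
    ext z; simp
  rw [h, measure_iUnion_null_iff]
  intro g
  refine (Measure.quasiMeasurePreserving_fst (μ := (volume : Measure ((G → ℝ) × (G → ℝ))))
    (ν := (volume : Measure Y))).preimage_null ?_
  refine (Measure.quasiMeasurePreserving_snd (μ := (volume : Measure (G → ℝ)))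
    (ν := (volume : Measure (G → ℝ)))).preimage_null ?_
  exact (Measure.quasiMeasurePreserving_eval (fun _ : G => (volume : Measure ℝ)) g).preimage_null
    (measure_singleton a)

end

/-- **(S6-pol)** -/
theorem pol : Pol := by
  intro X R Bg far
  classical
  by_cases h : Fintype.card (Sv R Bg ⊕ R.Cm) = 8
  swap
  · simp only [Gc, piece, dif_neg h, integral_zero]
  rw [piece, dif_pos h]
  set S : Set ((Sv R Bg → ℂ) × (R.Cm → ℂ)) :=
    {x | (∀ g, ‖x.1 g‖ < 1) ∧ ∀ c, x.2 c ∈ zone0 (far c)} with hS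
  have hSm : MeasurableSet S := by
    have h1 : MeasurableSet {x : (Sv R Bg → ℂ) × (R.Cm → ℂ) | ∀ g, ‖x.1 g‖ < 1} := by
      rw [Set.ofPred_forall]
      exact MeasurableSet.iInter fun g => measurableSet_lt (by fun_prop) measurable_const
    have h2 : MeasurableSet {x : (Sv R Bg → ℂ) × (R.Cm → ℂ) | ∀ c, x.2 c ∈ zone0 (far c)} := by
      rw [Set.ofPred_forall]
      exact MeasurableSet.iInter fun c => (measurableSet_zone0 _).preimage (by fun_prop)
    exact h1.inter h2
  rw [(H92.polar hSm _).2]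
  have hmp : MeasurePreserving (MeasurableEquiv.prodAssoc :
      ((Sv R Bg → ℝ) × (Sv R Bg → ℝ)) × (R.Cm → ℂ) ≃ᵐ _) volume volume :=
    measurePreserving_prodAssoc (volume : Measure (Sv R Bg → ℝ))
      (volume : Measure (Sv R Bg → ℝ)) (volume : Measure (R.Cm → ℂ))
  have hme := (MeasurableEquiv.prodAssoc :
    ((Sv R Bg → ℝ) × (Sv R Bg → ℝ)) × (R.Cm → ℂ) ≃ᵐ _).measurableEmbedding
  rw [← hmp.setIntegral_preimage_emb hme]
  have hset : (box R Bg far : Set (Lg R Bg)) =ᵐ[volume]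
      ((MeasurableEquiv.prodAssoc : ((Sv R Bg → ℝ) × (Sv R Bg → ℝ)) × (R.Cm → ℂ) ≃ᵐ _) ⁻¹'
        {p : (Sv R Bg → ℝ) × (Sv R Bg → ℝ) × (R.Cm → ℂ) |
          (∀ g, p.2.1 g ∈ Ioo (-Real.pi) Real.pi) ∧ H92.lp p ∈ S}) := by
    have hn := null_phi (G := Sv R Bg) (Y := R.Cm → ℂ) Real.pi
    filter_upwards [compl_mem_ae_iff.2 hn] with z hz
    have hz' : ∀ g, z.1.2 g ≠ Real.pi := fun g hg => hz ⟨g, hg⟩
    refine propext ⟨fun hb => ?_, fun hb => ?_⟩
    · refine ⟨fun g => ⟨(hb.2.1 g).1, lt_of_le_of_ne (hb.2.1 g).2 (hz' g)⟩, fun g => ?_, hb.2.2⟩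
      have := hb.1 g
      change ‖Complex.exp (-(z.1.1 g : ℂ) + (z.1.2 g : ℂ) * Complex.I)‖ < 1
      rw [Complex.norm_exp]
      simpa using this
    · refine ⟨fun g => ?_, fun g => ⟨(hb.1 g).1, (hb.1 g).2.le⟩, hb.2.2⟩
      have h1 : ‖Complex.exp (-(z.1.1 g : ℂ) + (z.1.2 g : ℂ) * Complex.I)‖ < 1 := hb.2.1 g
      rw [Complex.norm_exp] at h1
      simpa using h1
  rw [setIntegral_congr_set hset]
  refine setIntegral_congr_fun ?_ fun z _ => ?_
  · refine MeasurableSet.preimage ?_ (MeasurableEquiv.measurable _)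
    have h1 : MeasurableSet {p : (Sv R Bg → ℝ) × (Sv R Bg → ℝ) × (R.Cm → ℂ) |
        ∀ g, p.2.1 g ∈ Ioo (-Real.pi) Real.pi} := by
      rw [Set.ofPred_forall]
      exact MeasurableSet.iInter fun g => measurableSet_Ioo.preimage (by fun_prop)
    have h2 : Measurable (H92.lp :
        (Sv R Bg → ℝ) × (Sv R Bg → ℝ) × (R.Cm → ℂ) → (Sv R Bg → ℂ) × (R.Cm → ℂ)) := by
      refine Measurable.prodMk (measurable_pi_lambda _ fun g => ?_) (by fun_prop)
      fun_prop
    exact h1.inter (h2 hSm)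
  · simp only [Gc, dif_pos h, smul_eq_mul]
    rfl

end Vale.Agent.P273.H728

end
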