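import Vale.Agent.P273.H728.Form
import Vale.Agent.P273.H728.ExtOf
import Vale.Agent.P273.H732.Conv2
import Vale.Agent.P273.H93.Dec

/-!
# P273, LIM-V: the cells of the theta strata in the regions

For a cell `c` of the graph `thE e p q σ`: the region with gaps `Tc` (93's `enc`), the charts `Sc`
of the core marks, and the linear map `iot` from the coordinates of the cell to the coordinates of
the region (`0` at the gaps of `B`).
-/

noncomputable section

namespace Vale.Agent.P273.H728

open Set Sum H183 H837 H93 H95 H503 H732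

theorem ctr_sub (i j : Fin 3) : ctr i - ctr j = ((2 * ((i : ℕ) : ℝ) - 2 * ((j : ℕ) : ℝ) : ℝ) : ℂ) := by
  unfold ctr; push_cast; ring

/-- The theta data: the three centres, the radius `1/32`, and the large radius `11`. -/
def D0 : TD where
  ct := ctr
  ρ := 1 / 32
  R := 11
  pos := by norm_num
  sep i j h := by
    rw [ctr_sub, Complex.norm_real, Real.norm_eq_abs]
    fin_cases i <;> fin_cases j <;> simp at h ⊢ <;> norm_num [abs_of_pos, abs_of_neg]
  big k := by
    have e : ctr k = ((2 * ((k : ℕ) : ℝ) + 3 / 2 : ℝ) : ℂ) := by unfold ctr; push_cast; ring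
    rw [e, Complex.norm_real, Real.norm_eq_abs, abs_of_nonneg (by positivity)]
    fin_cases k <;> norm_num

/-- The neck of a zone. -/
def Zone.nk (z : Zone) : Option (Fin 3) := z.elim (fun _ => none) some

/-- The necks of the core marks. -/
def Cell.lo (c : Cell) (b : Bool) : Option (Fin 3) := Zone.nk (c.loc b)

/-- The two core marks are at the same end. -/
def sm (e : Bool → Bool) : Bool := decide (e true = e false)

/-- The type of the first of the two core marks, counted from the core `none`, if both are in one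
group. -/
def Cell.oo (c : Cell) (e : Bool → Bool) : Bool :=
  if c.Same (sm e) then xor c.ord (e true) else true

/-- The region with gaps of a cell. -/
def Tc {p q : ℕ} (hp : p ≤ q) (hq : q ≤ 6) (σ : Bool → Equiv.Perm (Fin 7)) (e : Bool → Bool)
    (c : Cell) : RB := enc c.bit (c.oo e) hp hq σ e c.lo

/-- The far marks of a cell. -/
def Sc (σ : Bool → Equiv.Perm (Fin 7)) (c : Cell) (x : Mk) : Bool :=
  decide (σ x.2 x.1 = 6 ∧ c.loc x.2 = inl true)

/-- The coordinate of the core mark of type `b`. -/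
def cf (b : Bool) : Fin 8 := if b then 6 else 7

/-- The type of the core mark number `i` of the group in the neck `k` next to the core `z`. -/
def cb (e : Bool → Bool) (c : Cell) (z : Bool) (k : Fin 3) (i : ℕ) : Bool :=
  decide (c.lo true = some k ∧ e true = z ∧ ic e c.lo (c.oo e) true = i)

/-- The coordinate of the gap `(k, g)`: `none` for the gaps of `B`. -/
def gi (p q : ℕ) (e : Bool → Bool) (c : Cell) (k : Fin 3) (g : ℕ) : Option (Fin 8) :=
  if g < nc e c.lo false k then some (cf (cb e c false k g))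
  else if g ≤ nc e c.lo false k + 2 * len p q k then
    (if (g - nc e c.lo false k) % 2 = 0 then none
      else some (Fin.ofNat 8 (off p q k + (g - nc e c.lo false k - 1) / 2)))
  else some (cf (cb e c true k (g - nc e c.lo false k - 2 * len p q k - 1)))

/-- The linear map from the coordinates of a cell to the coordinates of its region. -/
def iot {p q : ℕ} (hp : p ≤ q) (hq : q ≤ 6) (σ : Bool → Equiv.Perm (Fin 7)) (e : Bool → Bool)
    (c : Cell) : (Fin 8 → ℂ) →L[ℂ] (rg (Tc hp hq σ e c)).Sp :=
  (ContinuousLinearMap.pi fun g : (rg (Tc hp hq σ e c)).Gap =>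
    (gi p q e c g.1 g.2).elim 0 fun j => ContinuousLinearMap.proj j).prod
  (ContinuousLinearMap.pi fun x : (rg (Tc hp hq σ e c)).Cm => ContinuousLinearMap.proj (cf x.1.2))

theorem iot_fst {p q : ℕ} (hp : p ≤ q) (hq : q ≤ 6) (σ : Bool → Equiv.Perm (Fin 7))
    (e : Bool → Bool) (c : Cell) (ζ : Fin 8 → ℂ) (g : (rg (Tc hp hq σ e c)).Gap) :
    (iot hp hq σ e c ζ).1 g = (gi p q e c g.1 g.2).elim 0 ζ := by
  unfold iot
  change ((gi p q e c g.1 g.2).elim (0 : (Fin 8 → ℂ) →L[ℂ] ℂ) fun j => ContinuousLinearMap.proj j) ζ = _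
  cases gi p q e c g.1 g.2 <;> rfl

theorem iot_snd {p q : ℕ} (hp : p ≤ q) (hq : q ≤ 6) (σ : Bool → Equiv.Perm (Fin 7))
    (e : Bool → Bool) (c : Cell) (ζ : Fin 8 → ℂ) (x : (rg (Tc hp hq σ e c)).Cm) :
    (iot hp hq σ e c ζ).2 x = ζ (cf x.1.2) := rfl

/-- The real form of `iot`. -/
def ior {p q : ℕ} (hp : p ≤ q) (hq : q ≤ 6) (σ : Bool → Equiv.Perm (Fin 7)) (e : Bool → Bool)
    (c : Cell) : (Fin 8 → ℂ) →L[ℝ] (rg (Tc hp hq σ e c)).Sp :=
  (iot hp hq σ e c).restrictScalars ℝ

/-- The integrand of a cell: the value of the form of the region (in the scaled coordinates) on the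
standard frame. -/
def val (X : Ext) {p q : ℕ} (hp : p ≤ q) (hq : q ≤ 6) (σ : Bool → Equiv.Perm (Fin 7))
    (e : Bool → Bool) (c : Cell) (ζ : Fin 8 → ℂ) : ℝ :=
  FW X (rg (Tc hp hq σ e c)) (Sc σ c) (iot hp hq σ e c ζ)
    (fun a : Fin (8 * 2) => iot hp hq σ e c (fr a))

end Vale.Agent.P273.H728

end
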