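import Vale.Agent.P273.H728.Form

/-!
# P273, LIM-V: the inverse of the map of a cell
-/

noncomputable section

namespace Vale.Agent.P273.H728

open Set Filter
open scoped Topology

namespace TD

variable (D : TD)

/-- The inverse of `M`. -/
def Mi (z : ℂ) : ℂ :=
  (z * D.ct 2 * (D.ct 1 - D.ct 0) - D.ct 0 * (D.ct 1 - D.ct 2)) /
    (z * (D.ct 1 - D.ct 0) - (D.ct 1 - D.ct 2))

theorem M_pole {x : ℂ} (hx : x ≠ D.ct 2) : D.M x * (D.ct 1 - D.ct 0) - (D.ct 1 - D.ct 2) ≠ 0 := by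
  have h2 : x - D.ct 2 ≠ 0 := sub_ne_zero.2 hx
  have h10 : D.ct 1 - D.ct 0 ≠ 0 := D.ct_ne (by decide)
  have e : D.M x * (D.ct 1 - D.ct 0) - (D.ct 1 - D.ct 2) =
      (D.ct 1 - D.ct 2) * (D.ct 2 - D.ct 0) / (x - D.ct 2) := by
    unfold M
    field_simp
    ring
  rw [e]
  exact div_ne_zero (mul_ne_zero (D.ct_ne (by decide)) (D.ct_ne (by decide))) h2

theorem M_Mi {z : ℂ} (hd : z * (D.ct 1 - D.ct 0) - (D.ct 1 - D.ct 2) ≠ 0) :
    D.Mi z ≠ D.ct 2 ∧ D.M (D.Mi z) = z := by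
  have h10 : D.ct 1 - D.ct 0 ≠ 0 := D.ct_ne (by decide)
  set d := z * (D.ct 1 - D.ct 0) - (D.ct 1 - D.ct 2) with hdd
  have hx2 : D.Mi z - D.ct 2 = (D.ct 1 - D.ct 2) * (D.ct 2 - D.ct 0) / d := by
    unfold Mi
    rw [← hdd, eq_div_iff hd, sub_mul, div_mul_cancel₀ _ hd, hdd]
    ring
  have hne : D.Mi z - D.ct 2 ≠ 0 := by
    rw [hx2]
    exact div_ne_zero (mul_ne_zero (D.ct_ne (by decide)) (D.ct_ne (by decide))) hd
  refine ⟨sub_ne_zero.1 hne, ?_⟩
  have hx0 : D.Mi z - D.ct 0 = z * (D.ct 1 - D.ct 0) * (D.ct 2 - D.ct 0) / d := by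
    unfold Mi
    rw [← hdd, eq_div_iff hd, sub_mul, div_mul_cancel₀ _ hd, hdd]
    ring
  unfold M
  rw [div_eq_iff (mul_ne_zero hne h10), hx0, hx2]
  field_simp

theorem Mi_M {x : ℂ} (hx : x ≠ D.ct 2) : D.Mi (D.M x) = x := by
  obtain ⟨h1, h2⟩ := D.M_Mi (D.M_pole hx)
  exact D.M_inj h1 hx h2

/-- The coordinate of a position. -/
def pli (l : Zone) (x : ℂ) : ℂ :=
  match l with
  | .inl false => x
  | .inl true => x⁻¹
  | .inr k => (x - D.ct k) / D.ρ

theorem place_pli (l : Zone) (x : ℂ) : D.place l (D.pli l x) = x := by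
  rcases l with (_ | _) | k
  · rfl
  · exact inv_inv x
  · change D.ct k + D.ρ * ((x - D.ct k) / D.ρ) = x
    rw [mul_div_cancel₀ _ D.rho_ne]; ring

theorem pli_place (l : Zone) (ζ : ℂ) : D.pli l (D.place l ζ) = ζ :=
  D.place_inj (D.place_pli l _)

variable (s : Bool) (c : Cell)

/-- The inverse of the map of a cell. -/
def kin (b : Fin 8 → ℂ) (j : Fin 8) : ℂ :=
  if h : j.1 < 6 then (if c.bit ⟨j.1, h⟩ = true then b j else (b j)⁻¹)
  else if j = 6 then (if c.Same s ∧ c.ord = false then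
      D.pli (c.loc true) (D.Mi (b 6)) / D.pli (c.loc false) (D.Mi (b 7))
    else D.pli (c.loc true) (D.Mi (b 6)))
  else (if c.Same s ∧ c.ord = true then
      D.pli (c.loc false) (D.Mi (b 7)) / D.pli (c.loc true) (D.Mi (b 6))
    else D.pli (c.loc false) (D.Mi (b 7)))

variable {D s c}

theorem kin_lt (b : Fin 8 → ℂ) {j : Fin 8} (h : j.1 < 6) :
    D.kin s c b j = if c.bit ⟨j.1, h⟩ = true then b j else (b j)⁻¹ := by
  rw [kin, dif_pos h]

theorem kin_six (b : Fin 8 → ℂ) : D.kin s c b 6 = (if c.Same s ∧ c.ord = false then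
      D.pli (c.loc true) (D.Mi (b 6)) / D.pli (c.loc false) (D.Mi (b 7))
    else D.pli (c.loc true) (D.Mi (b 6))) := by
  simp [kin]

theorem kin_seven (b : Fin 8 → ℂ) : D.kin s c b 7 = (if c.Same s ∧ c.ord = true then
      D.pli (c.loc false) (D.Mi (b 7)) / D.pli (c.loc true) (D.Mi (b 6))
    else D.pli (c.loc false) (D.Mi (b 7))) := by
  have h1 : ¬ ((7 : Fin 8).1 < 6) := by decide
  have h2 : (7 : Fin 8) ≠ 6 := by decide
  rw [kin, dif_neg h1, if_neg h2]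

theorem pli_xA {ζ : Fin 8 → ℂ} : D.pli (c.loc true) (D.xA s c ζ) =
    if c.Same s ∧ c.ord = false then ζ 7 * ζ 6 else ζ 6 := by
  unfold xA; exact D.pli_place _ _

theorem pli_xB {ζ : Fin 8 → ℂ} : D.pli (c.loc false) (D.xB s c ζ) =
    if c.Same s ∧ c.ord = true then ζ 6 * ζ 7 else ζ 7 := by
  unfold xB; exact D.pli_place _ _

theorem Mi_six {ζ : Fin 8 → ℂ} (h : ζ ∈ D.Om s c) : D.Mi (D.kap s c ζ 6) = D.xA s c ζ := by
  rw [kap_six, D.Mi_M (D.reg_ne (xA_mem h) 2)]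

theorem Mi_seven {ζ : Fin 8 → ℂ} (h : ζ ∈ D.Om s c) : D.Mi (D.kap s c ζ 7) = D.xB s c ζ := by
  rw [kap_seven, D.Mi_M (D.reg_ne (xB_mem h) 2)]

theorem ne_zero_of_same {ζ : Fin 8 → ℂ} (h : ζ ∈ D.Om s c) (hs : c.Same s) :
    ζ 6 ≠ 0 ∧ ζ 7 ≠ 0 := by
  obtain ⟨k, hk⟩ := Sum.isRight_iff.1 hs.2.2
  have h6 := h.2.1
  have h7 := h.2.2.1
  rw [← hs.2.1, hk] at h7
  rw [hk] at h6
  exact ⟨h6.1, h7.1⟩

theorem kin_kap {ζ : Fin 8 → ℂ} (h : ζ ∈ D.Om s c) : D.kin s c (D.kap s c ζ) = ζ := by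
  funext j
  rcases fin8_cases j with hj | rfl | rfl
  · rw [kin_lt _ hj, kap_lt _ hj]
    split_ifs
    · rfl
    · exact inv_inv _
  · rw [kin_six, Mi_six h, Mi_seven h, pli_xA, pli_xB]
    by_cases h1 : c.Same s ∧ c.ord = false
    · rw [if_pos h1, if_pos h1, if_neg (by rw [h1.2]; simp),
        mul_div_cancel_left₀ _ (ne_zero_of_same h h1.1).2]
    · rw [if_neg h1, if_neg h1]
  · rw [kin_seven, Mi_six h, Mi_seven h, pli_xA, pli_xB]
    by_cases h1 : c.Same s ∧ c.ord = true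
    · rw [if_pos h1, if_pos h1, if_neg (by rw [h1.2]; simp),
        mul_div_cancel_left₀ _ (ne_zero_of_same h h1.1).1]
    · rw [if_neg h1, if_neg h1]

theorem kap_kin {b : Fin 8 → ℂ} (h6 : b 6 * (D.ct 1 - D.ct 0) - (D.ct 1 - D.ct 2) ≠ 0)
    (h7 : b 7 * (D.ct 1 - D.ct 0) - (D.ct 1 - D.ct 2) ≠ 0)
    (hA : c.Same s ∧ c.ord = false → D.pli (c.loc false) (D.Mi (b 7)) ≠ 0)
    (hB : c.Same s ∧ c.ord = true → D.pli (c.loc true) (D.Mi (b 6)) ≠ 0) :
    D.kap s c (D.kin s c b) = b := by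
  have eA : D.xA s c (D.kin s c b) = D.Mi (b 6) := by
    unfold xA
    rw [kin_six, kin_seven]
    by_cases h1 : c.Same s ∧ c.ord = false
    · rw [if_pos h1, if_pos h1, if_neg (by rw [h1.2]; simp), mul_div_cancel₀ _ (hA h1),
        D.place_pli]
    · rw [if_neg h1, if_neg h1, D.place_pli]
  have eB : D.xB s c (D.kin s c b) = D.Mi (b 7) := by
    unfold xB
    rw [kin_six, kin_seven]
    by_cases h1 : c.Same s ∧ c.ord = true
    · rw [if_pos h1, if_pos h1, if_neg (by rw [h1.2]; simp), mul_div_cancel₀ _ (hB h1),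
        D.place_pli]
    · rw [if_neg h1, if_neg h1, D.place_pli]
  funext j
  rcases fin8_cases j with hj | rfl | rfl
  · rw [kap_lt _ hj, kin_lt _ hj]
    split_ifs
    · rfl
    · exact inv_inv _
  · rw [kap_six, eA, (D.M_Mi h6).2]
  · rw [kap_seven, eB, (D.M_Mi h7).2]

theorem Mi_an {f : (Fin 8 → ℂ) → ℂ} {b : Fin 8 → ℂ} (hf : AnalyticAt ℂ f b)
    (h : f b * (D.ct 1 - D.ct 0) - (D.ct 1 - D.ct 2) ≠ 0) :
    AnalyticAt ℂ (fun b => D.Mi (f b)) b := by
  unfold Mi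
  exact (((hf.mul analyticAt_const).mul analyticAt_const).sub analyticAt_const).div
    ((hf.mul analyticAt_const).sub analyticAt_const) h

theorem pli_an {l : Zone} {f : (Fin 8 → ℂ) → ℂ} {b : Fin 8 → ℂ} (hf : AnalyticAt ℂ f b)
    (h : l = .inl true → f b ≠ 0) : AnalyticAt ℂ (fun b => D.pli l (f b)) b := by
  rcases l with (_ | _) | k
  · exact hf
  · exact hf.inv (h rfl)
  · change AnalyticAt ℂ (fun b => (f b - D.ct k) / D.ρ) b
    exact (hf.sub analyticAt_const).div analyticAt_const D.rho_ne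

theorem an_proj (j : Fin 8) (b : Fin 8 → ℂ) : AnalyticAt ℂ (fun b : Fin 8 → ℂ => b j) b :=
  (ContinuousLinearMap.proj (R := ℂ) (φ := fun _ : Fin 8 => ℂ) j).analyticAt b

theorem reg_far {x : ℂ} {l : Zone} (h : x ∈ D.reg l) (hl : l = .inl true) : x ≠ 0 := by
  rw [hl] at h
  have h1 : D.R < ‖x‖ := h
  exact norm_pos_iff.1 (D.R_pos.trans h1)

theorem pliA_an {ζ : Fin 8 → ℂ} (h : ζ ∈ D.Om s c) :
    AnalyticAt ℂ (fun b : Fin 8 → ℂ => D.pli (c.loc true) (D.Mi (b 6))) (D.kap s c ζ) := by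
  refine pli_an (Mi_an (an_proj 6 _) ?_) fun hl => ?_
  · rw [kap_six]
    exact D.M_pole (D.reg_ne (xA_mem h) 2)
  · rw [Mi_six h]
    exact reg_far (xA_mem h) hl

theorem pliB_an {ζ : Fin 8 → ℂ} (h : ζ ∈ D.Om s c) :
    AnalyticAt ℂ (fun b : Fin 8 → ℂ => D.pli (c.loc false) (D.Mi (b 7))) (D.kap s c ζ) := by
  refine pli_an (Mi_an (an_proj 7 _) ?_) fun hl => ?_
  · rw [kap_seven]
    exact D.M_pole (D.reg_ne (xB_mem h) 2)
  · rw [Mi_seven h]
    exact reg_far (xB_mem h) hl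

theorem pliA_ne {ζ : Fin 8 → ℂ} (h : ζ ∈ D.Om s c) (h1 : c.Same s ∧ c.ord = true) :
    D.pli (c.loc true) (D.Mi (D.kap s c ζ 6)) ≠ 0 := by
  rw [Mi_six h, pli_xA, if_neg (by rw [h1.2]; simp)]
  exact (ne_zero_of_same h h1.1).1

theorem pliB_ne {ζ : Fin 8 → ℂ} (h : ζ ∈ D.Om s c) (h1 : c.Same s ∧ c.ord = false) :
    D.pli (c.loc false) (D.Mi (D.kap s c ζ 7)) ≠ 0 := by
  rw [Mi_seven h, pli_xB, if_neg (by rw [h1.2]; simp)]
  exact (ne_zero_of_same h h1.1).2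

/-- **The inverse is holomorphic.** -/
theorem kin_an {ζ : Fin 8 → ℂ} (h : ζ ∈ D.Om s c) : AnalyticAt ℂ (D.kin s c) (D.kap s c ζ) := by
  refine AnalyticAt.pi fun j => ?_
  rcases fin8_cases j with hj | rfl | rfl
  · have e : (fun b => D.kin s c b j) = fun b => if c.bit ⟨j.1, hj⟩ = true then b j else (b j)⁻¹ := by
      funext b
      exact kin_lt b hj
    rw [e]
    split_ifs
    · exact an_proj j _
    · exact (an_proj j _).inv ((kap_mem h).1 j).1
  · have e : (fun b => D.kin s c b 6) = fun b => (if c.Same s ∧ c.ord = false then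
      D.pli (c.loc true) (D.Mi (b 6)) / D.pli (c.loc false) (D.Mi (b 7))
      else D.pli (c.loc true) (D.Mi (b 6))) := funext fun b => kin_six b
    rw [e]
    by_cases h1 : c.Same s ∧ c.ord = false
    · simp only [if_pos h1]
      exact (pliA_an h).div (pliB_an h) (pliB_ne h h1)
    · simp only [if_neg h1]
      exact pliA_an h
  · have e : (fun b => D.kin s c b 7) = fun b => (if c.Same s ∧ c.ord = true then
      D.pli (c.loc false) (D.Mi (b 7)) / D.pli (c.loc true) (D.Mi (b 6))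
      else D.pli (c.loc false) (D.Mi (b 7))) := funext fun b => kin_seven b
    rw [e]
    by_cases h1 : c.Same s ∧ c.ord = true
    · simp only [if_pos h1]
      exact (pliB_an h).div (pliA_an h) (pliA_ne h h1)
    · simp only [if_neg h1]
      exact pliB_an h

/-- Near the image of the cell, `kin` is also a right inverse. -/
theorem ev_kap_kin {ζ : Fin 8 → ℂ} (h : ζ ∈ D.Om s c) :
    ∀ᶠ b in 𝓝 (D.kap s c ζ), D.kap s c (D.kin s c b) = b := by
  have h6 : ∀ᶠ b in 𝓝 (D.kap s c ζ), b 6 * (D.ct 1 - D.ct 0) - (D.ct 1 - D.ct 2) ≠ 0 := by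
    refine (((an_proj 6 _).continuousAt.mul continuousAt_const).sub
      continuousAt_const).eventually_ne ?_
    change D.kap s c ζ 6 * (D.ct 1 - D.ct 0) - (D.ct 1 - D.ct 2) ≠ 0
    rw [kap_six]
    exact D.M_pole (D.reg_ne (xA_mem h) 2)
  have h7 : ∀ᶠ b in 𝓝 (D.kap s c ζ), b 7 * (D.ct 1 - D.ct 0) - (D.ct 1 - D.ct 2) ≠ 0 := by
    refine (((an_proj 7 _).continuousAt.mul continuousAt_const).sub
      continuousAt_const).eventually_ne ?_
    change D.kap s c ζ 7 * (D.ct 1 - D.ct 0) - (D.ct 1 - D.ct 2) ≠ 0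
    rw [kap_seven]
    exact D.M_pole (D.reg_ne (xB_mem h) 2)
  have hA : ∀ᶠ b in 𝓝 (D.kap s c ζ),
      c.Same s ∧ c.ord = false → D.pli (c.loc false) (D.Mi (b 7)) ≠ 0 := by
    by_cases h1 : c.Same s ∧ c.ord = false
    · filter_upwards [(pliB_an h).continuousAt.eventually_ne (pliB_ne h h1)] with b hb _ using hb
    · exact Eventually.of_forall fun b h2 => absurd h2 h1
  have hB : ∀ᶠ b in 𝓝 (D.kap s c ζ),
      c.Same s ∧ c.ord = true → D.pli (c.loc true) (D.Mi (b 6)) ≠ 0 := by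
    by_cases h1 : c.Same s ∧ c.ord = true
    · filter_upwards [(pliA_an h).continuousAt.eventually_ne (pliA_ne h h1)] with b hb _ using hb
    · exact Eventually.of_forall fun b h2 => absurd h2 h1
  filter_upwards [h6, h7, hA, hB] with b g6 g7 gA gB using kap_kin g6 g7 gA gB

/-- The image of a cell is open. -/
theorem isOpen_image : IsOpen (D.kap s c '' D.Om s c) := by
  rw [isOpen_iff_mem_nhds]
  rintro _ ⟨ζ, h, rfl⟩
  have h1 : ∀ᶠ b in 𝓝 (D.kap s c ζ), D.kin s c b ∈ D.Om s c := by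
    have := (kin_an h).continuousAt
    refine this.eventually_mem (isOpen_Om.mem_nhds ?_)
    rw [kin_kap h]; exact h
  filter_upwards [h1, ev_kap_kin h] with b g1 g2 using ⟨_, g1, g2⟩

end TD

end Vale.Agent.P273.H728

end
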