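import Vale.Agent.P273.H728.PosI
import Vale.Agent.P273.H728.Inv
import Vale.Agent.P273.H720.CellDom

/-!
# P273, LIM-V: the form `F` on a cell is the form of the region
-/

noncomputable section

namespace Vale.Agent.P273.H728

open Set Sum Filter H183 H837 H93 H95 H503 H732
open scoped Topology

/-! ### The matrices -/

/-- The matrix of `M`. -/
def MM (D : TD) : Matrix (Fin 2) (Fin 2) ℂ :=
  !![D.ct 1 - D.ct 2, -(D.ct 0 * (D.ct 1 - D.ct 2)); D.ct 1 - D.ct 0, -(D.ct 2 * (D.ct 1 - D.ct 0))]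

theorem det_MM (D : TD) : (MM D).det ≠ 0 := by
  have e : (MM D).det = (D.ct 1 - D.ct 2) * (D.ct 1 - D.ct 0) * (D.ct 0 - D.ct 2) := by
    unfold MM
    rw [Matrix.det_fin_two_of]
    ring
  rw [e]
  exact mul_ne_zero (mul_ne_zero (D.ct_ne (by decide)) (D.ct_ne (by decide))) (D.ct_ne (by decide))

theorem mob_MM (D : TD) {x : ℂ} (hx : x ≠ D.ct 2) :
    mob (MM D) (x : OnePoint ℂ) = (D.M x : OnePoint ℂ) := by
  unfold mob
  rw [lft_coe, proj_eq_coe]
  have h10 : D.ct 1 - D.ct 0 ≠ 0 := D.ct_ne (by decide)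
  have h2 : x - D.ct 2 ≠ 0 := sub_ne_zero.2 hx
  simp only [H837.act, MM, Matrix.of_apply, Matrix.cons_val', Matrix.cons_val_zero,
    Matrix.cons_val_one, Matrix.cons_val_fin_one, mul_one]
  have e : (D.ct 1 - D.ct 0) * x + -(D.ct 2 * (D.ct 1 - D.ct 0)) =
      (x - D.ct 2) * (D.ct 1 - D.ct 0) := by ring
  refine ⟨by rw [e]; exact mul_ne_zero h2 h10, ?_⟩
  rw [e, TD.M, div_mul_cancel₀ _ (mul_ne_zero h2 h10)]
  ring

theorem mob_MM_ct (D : TD) (k : Fin 3) :
    mob (MM D) (D.ct k : OnePoint ℂ) = pt (m := 8) 0 (inl k) := by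
  by_cases hk : k = 2
  · subst hk
    unfold mob
    rw [lft_coe]
    change _ = OnePoint.infty
    rw [proj_eq_infty]
    simp only [H837.act, MM, Matrix.of_apply, Matrix.cons_val', Matrix.cons_val_zero,
      Matrix.cons_val_one, Matrix.cons_val_fin_one, mul_one]
    ring
  · have h : D.ct k ≠ D.ct 2 := sub_ne_zero.1 (D.ct_ne hk)
    rw [mob_MM D h]
    fin_cases k
    · change ((D.M (D.ct 0) : ℂ) : OnePoint ℂ) = ((0 : ℂ) : OnePoint ℂ)
      simp [TD.M]
    · change ((D.M (D.ct 1) : ℂ) : OnePoint ℂ) = ((1 : ℂ) : OnePoint ℂ)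
      rw [TD.M_one]
    · exact absurd rfl hk

/-- The diagonal matrices. -/
def dg (a : ℂ) : Matrix (Fin 2) (Fin 2) ℂ := !![a, 0; 0, 1]

theorem det_dg (a : ℂ) : (dg a).det = a := by
  unfold dg
  rw [Matrix.det_fin_two_of]
  ring

theorem mob_dg (a x : ℂ) : mob (dg a) (x : OnePoint ℂ) = ((a * x : ℂ) : OnePoint ℂ) := by
  unfold mob
  rw [lft_coe, proj_eq_coe]
  simp [H837.act, dg]

theorem mob_dg_inf {a : ℂ} : mob (dg a) OnePoint.infty = OnePoint.infty := by
  unfold mob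
  rw [lft_infty, proj_eq_infty]
  simp [H837.act, dg]

/-- The matrices of the components. -/
def AM (c : Cell) (v : Option (Fin 7)) (b : Fin 8 → ℂ) : Matrix (Fin 2) (Fin 2) ℂ :=
  v.elim (MM D0) fun t => if t = 6 then MM D0 else
    dg (if c.bit (Fin.ofNat 6 t.1) = true then 1 else b (Fin.ofNat 8 t.1))

theorem AM_an (c : Cell) (v : Option (Fin 7)) (i j : Fin 2) (b : Fin 8 → ℂ) :
    AnalyticAt ℂ (fun b => AM c v b i j) b := by
  rcases v with _ | t
  · exact analyticAt_const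
  · unfold AM
    simp only [Option.elim_some]
    by_cases ht : t = 6
    · simp only [if_pos ht]
      exact analyticAt_const
    · simp only [if_neg ht]
      by_cases hb : c.bit (Fin.ofNat 6 t.1) = true
      · simp only [if_pos hb]
        exact analyticAt_const
      · simp only [if_neg hb]
        unfold dg
        fin_cases i <;> fin_cases j
        · exact TD.an_proj _ _
        · exact analyticAt_const
        · exact analyticAt_const
        · exact analyticAt_const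

theorem AM_det (c : Cell) (v : Option (Fin 7)) {b : Fin 8 → ℂ} (hb : ∀ j, b j ≠ 0) :
    (AM c v b).det ≠ 0 := by
  rcases v with _ | t
  · exact det_MM D0
  · unfold AM
    simp only [Option.elim_some]
    split_ifs
    · exact det_MM D0
    · rw [det_dg]; exact one_ne_zero
    · rw [det_dg]; exact hb _

/-! ### The positions of the half-edges -/

theorem he_core : ∀ p q : Fin 7, p ≤ q → ∀ y s, he p q (y, s) = none ∨ he p q (y, s) = some 6 →
    (if s then (geE p q y).2 = 0 else (geE p q y).2 + 1 = len p q (geE p q y).1 + 1) ∧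
      cE p q (y, s) = (geE p q y).1 := by
  decide +kernel

theorem he_free : ∀ p q : Fin 7, p ≤ q → ∀ y s, he p q (y, s) ≠ none → he p q (y, s) ≠ some 6 →
    (¬ (if s then (geE p q y).2 = 0 else (geE p q y).2 + 1 = len p q (geE p q y).1 + 1)) ∧
      cE p q (y, s) = if s then 0 else 2 := by
  decide +kernel

theorem ofNat8_eq {t : Fin 7} (h : t.1 < 6) : (Fin.ofNat 8 t.1).1 < 6 := by
  change t.1 % 8 < 6
  omega

theorem ofNat6_eq {t : Fin 7} (h : t.1 < 6) :
    (⟨(Fin.ofNat 8 t.1).1, ofNat8_eq h⟩ : Fin 6) = Fin.ofNat 6 t.1 := by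
  apply Fin.ext
  change t.1 % 8 = t.1 % 6
  omega

theorem castLE_eq (t : Fin 7) : (Fin.castLE (by norm_num) t : Fin 8) = Fin.ofNat 8 t.1 := by
  apply Fin.ext
  change t.1 = t.1 % 8
  omega

section

variable (p q : Fin 7) (hp : p.1 ≤ q.1) (hq : q.1 ≤ 6) (σ : Bool → Equiv.Perm (Fin 7))
  (e : Bool → Bool) (c : Cell)

/-- The half-edges. -/
theorem pt_edge (b : Fin 8 → ℂ) (w : (rg (Tc hp hq σ e c)).Sp) (y : (Fin 3 ⊕ Fin 6) × Bool) :
    pt b ((coordE e p q hp σ).c (inl y)) =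
      mob (AM c (thE e p q σ (inl y)) b) (zz (Tc hp hq σ e c) (Sc σ c) (geE p q) w (inl y)) := by
  obtain ⟨y, s⟩ := y
  change pt b (inl (cE p q (y, s))) = mob (AM c (he p q (y, s)) b)
    (hz (Tc hp hq σ e c) (geE p q y).1 (geE p q y).2 s)
  have hcard : ((Tc hp hq σ e c).B (geE p q y).1).card = len p q (geE p q y).1 + 1 :=
    enc_B_card hp hq σ _
  have hpt : ∀ i : Fin 3, pt b (inl i) = pt (m := 8) 0 (inl i) := fun i => rfl
  unfold hz
  rw [hcard]
  by_cases hc : he p q (y, s) = none ∨ he p q (y, s) = some 6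
  · obtain ⟨h1, h2⟩ := he_core p q hp y s hc
    have hA : AM c (he p q (y, s)) b = MM D0 := by
      rcases hc with h | h
      · rw [h]; rfl
      · rw [h]; rfl
    have hz : (if s = true then (if (geE p q y).2 = 0 then ((ctr (geE p q y).1 : ℂ) : OnePoint ℂ)
        else ((0 : ℂ) : OnePoint ℂ)) else if (geE p q y).2 + 1 = len p q (geE p q y).1 + 1 then
        ((ctr (geE p q y).1 : ℂ) : OnePoint ℂ) else OnePoint.infty) =
        ((ctr (geE p q y).1 : ℂ) : OnePoint ℂ) := by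
      cases s
      · simp only [Bool.false_eq_true, if_false] at h1 ⊢
        rw [if_pos h1]
      · simp only [if_true] at h1 ⊢
        rw [if_pos h1]
    rw [hz, hA, h2, hpt]
    exact (mob_MM_ct D0 _).symm
  · push Not at hc
    obtain ⟨h1, h2⟩ := he_free p q hp y s hc.1 hc.2
    obtain ⟨t, ht⟩ := Option.ne_none_iff_exists'.1 hc.1
    have ht6 : t ≠ 6 := fun h => hc.2 (by rw [ht, h])
    obtain ⟨a, hA⟩ : ∃ a, AM c (he p q (y, s)) b = dg a := by
      rw [ht]
      unfold AM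
      simp only [Option.elim_some, if_neg ht6]
      exact ⟨_, rfl⟩
    rw [hA, h2]
    cases s
    · simp only [Bool.false_eq_true, if_false] at h1 ⊢
      rw [if_neg h1, mob_dg_inf]
      rfl
    · simp only [if_true] at h1 ⊢
      rw [if_neg h1, mob_dg, mul_zero]
      rfl

/-- The legs. -/
theorem pt_leg {ζ : Fin 8 → ℂ} (h : ζ ∈ D0.Om (sm e) c) (x : Mk) :
    pt (D0.kap (sm e) c ζ) ((coordE e p q hp σ).c (inr x)) =
      mob (AM c (thE e p q σ (inr x)) (D0.kap (sm e) c ζ))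
        (zz (Tc hp hq σ e c) (Sc σ c) (geE p q) (scl _ (iot hp hq σ e c ζ)) (inr x)) := by
  change pt (D0.kap (sm e) c ζ) (cL x.2 (σ x.2 x.1)) = mob (AM c (lg e x.2 (σ x.2 x.1)) _)
    (mz (Tc hp hq σ e c) (Sc σ c) (scl _ (iot hp hq σ e c ζ)) x)
  by_cases hx : (σ x.2 x.1).1 < 6
  · have h6 : σ x.2 x.1 ≠ 6 := fun h => by rw [h] at hx; exact absurd hx (by decide)
    rw [mz_free hp hq σ e c ζ hx, lg_ne _ _ _ h6]
    have hk := TD.kap_lt (D := D0) (s := sm e) (c := c) ζ (ofNat8_eq hx)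
    rw [ofNat6_eq hx] at hk
    have hζ := (h.1 _ (ofNat8_eq hx)).1
    unfold AM
    simp only [Option.elim_some, if_neg h6]
    rw [mob_dg]
    unfold cL
    rw [if_neg h6, castLE_eq, hk]
    rcases hb : x.2 with _ | _ <;> rcases hbit : c.bit (Fin.ofNat 6 (σ x.2 x.1).1) with _ | _
    · rw [hb] at hbit
      simp only [hbit, Bool.false_eq_true, if_false, if_true, mul_one]
      change ((D0.kap (sm e) c ζ (Fin.ofNat 8 _) : ℂ) : OnePoint ℂ) = _
      rw [← hb, hk, hb, hbit]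
      simp
    · rw [hb] at hbit
      simp only [hbit, Bool.false_eq_true, if_false, if_true, one_mul, Bool.true_eq_false]
      change ((D0.kap (sm e) c ζ (Fin.ofNat 8 _) : ℂ) : OnePoint ℂ) = _
      rw [← hb, hk, hb, hbit]
      simp
    · rw [hb] at hbit hζ
      simp only [hbit, Bool.false_eq_true, if_false, if_true]
      change ((1 : ℂ) : OnePoint ℂ) = _
      rw [inv_mul_cancel₀ hζ]
    · rw [hb] at hbit
      simp only [hbit, if_true, one_mul]
      rfl
  · have h6 : σ x.2 x.1 = 6 := Fin.ext (by change (σ x.2 x.1).1 = 6; omega)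
    have h0 : c.loc x.2 = inl true → ζ (cf x.2) ≠ 0 := by
      intro hl
      rcases hb : x.2 with _ | _
      · rw [hb] at hl
        have := h.2.2.1
        rw [hl] at this
        exact this.1
      · rw [hb] at hl
        have := h.2.1
        rw [hl] at this
        exact this.1
    rw [mz_core hp hq σ e c ζ hx h0, h6, lg_six]
    have hA : AM c (if e x.2 = true then some 6 else none) (D0.kap (sm e) c ζ) = MM D0 := by
      cases e x.2
      · rfl
      · rfl
    rw [hA]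
    rcases hb : x.2 with _ | _
    · have hr := TD.reg_ne D0 (TD.xB_mem h) 2
      rw [xB_eq] at hr
      rw [mob_MM D0 hr, ← xB_eq, ← TD.kap_seven]
      rfl
    · have hr := TD.reg_ne D0 (TD.xA_mem h) 2
      rw [xA_eq] at hr
      rw [mob_MM D0 hr, ← xA_eq, ← TD.kap_six]
      rfl

end

/-! ### The gaps -/

section

variable {p q : ℕ} (hp : p ≤ q) (hq : q ≤ 6) (σ : Bool → Equiv.Perm (Fin 7)) (e : Bool → Bool)
  (c : Cell)

theorem cf_ne {ζ : Fin 8 → ℂ} {s : Bool} (h : ζ ∈ D0.Om s c) {b : Bool} {k : Fin 3}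
    (hl : c.loc b = inr k) : ζ (cf b) ≠ 0 := by
  cases b
  · have := h.2.2.1
    rw [hl] at this
    exact this.1
  · have := h.2.1
    rw [hl] at this
    exact this.1

/-- The gaps that vanish are those of `B`. -/
theorem gap_zero {ζ : Fin 8 → ℂ} {s : Bool} (h : ζ ∈ D0.Om s c)
    (g : (rg (Tc hp hq σ e c)).Gap) :
    (scl _ (iot hp hq σ e c ζ)).1 g = 0 ↔ (g.2 : ℕ) ∈ (Tc hp hq σ e c).B g.1 := by
  obtain ⟨k, g⟩ := g
  rw [scl_apply]
  change cw _ _ * (iot hp hq σ e c ζ).1 ⟨k, g⟩ = 0 ↔ (g : ℕ) ∈ (Tc hp hq σ e c).B k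
  rw [mul_eq_zero, or_iff_right (cw_ne_zero _ _), iot_gap]
  have hB : ∀ n : ℕ, n ∈ (Tc hp hq σ e c).B k ↔ ∃ r ≤ len p q k,
      nc e c.lo false k + 2 * r = n := by
    intro n
    rw [Tc, enc_B, Finset.mem_image]
    simp only [Finset.mem_range, Nat.lt_succ_iff]
  have hn := rg_n hp hq σ e c k
  have hg : (g : ℕ) < (rg (Tc hp hq σ e c)).n k + 1 := g.2
  rw [hB]
  constructor
  · intro h0
    by_contra hne
    push Not at hne
    revert h0
    unfold gv gi
    split_ifs with h1 h2 h3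
    · have := H720.cb_loc e h1
      exact cf_ne c h this
    · exfalso
      exact hne (((g : ℕ) - nc e c.lo false k) / 2) (by omega) (by omega)
    · have ho := off_add_len hp hq k
      refine (h.1 _ ?_).1
      change (off p q k + ((g : ℕ) - nc e c.lo false k - 1) / 2) % 8 < 6
      omega
    · have hi : (g : ℕ) - nc e c.lo false k - 2 * len p q k - 1 < nc e c.lo true k := by omega
      have := H720.cb_loc e hi
      exact cf_ne c h this
  · rintro ⟨r, hr, h1⟩
    rw [← h1]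
    exact gv_B e c ζ hr

/-- `scl` as a complex linear map. -/
def sclC (R : Region) : R.Sp →L[ℂ] R.Sp :=
  (ContinuousLinearMap.pi fun g => cw R g • (ContinuousLinearMap.proj g : (R.Gap → ℂ) →L[ℂ] ℂ)).prodMap
    (ContinuousLinearMap.id ℂ (R.Cm → ℂ))

theorem sclC_apply (R : Region) (w : R.Sp) : sclC R w = scl R w := by
  rw [scl_apply]
  ext g
  · simp [sclC]
  · simp [sclC]

end

/-- **The form `F` on a cell is the form of the region.** -/
theorem cell_F {F : Form16} {X : Ext} (hX : ExtOf F X) (p q : Fin 7) (hp : p.1 ≤ q.1)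
    (hq : q.1 ≤ 6) (σ : Bool → Equiv.Perm (Fin 7)) (e : Bool → Bool) {C : Fam Lg14 8}
    (hC : C.IsStable) (hg : (coordE e p q hp σ).IsGlued C) (c : Cell) {ζ : Fin 8 → ℂ}
    (h : ζ ∈ D0.Om (sm e) c) :
    |(fderiv ℝ (D0.kap (sm e) c) ζ).det| • dens (F 8 C) (D0.kap (sm e) c ζ) =
      val X hp hq σ e c ζ := by
  have hbase : (coordE e p q hp σ).base = bs (sm e) := by
    rw [base_coordE]
    ext b
    simp only [baseE, bs, sm, decide_eq_true_eq, mem_setOf_eq]
  let φ : (Fin 8 → ℂ) → (rg (Tc hp hq σ e c)).Sp := fun b =>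
    sclC _ (iot hp hq σ e c (D0.kin (sm e) c b))
  have hφ : ∀ ζ' ∈ D0.Om (sm e) c, φ (D0.kap (sm e) c ζ') = scl _ (iot hp hq σ e c ζ') := by
    intro ζ' h'
    simp only [φ]
    rw [TD.kin_kap h', sclC_apply]
  have hφan : ∀ ζ' ∈ D0.Om (sm e) c, AnalyticAt ℂ φ (D0.kap (sm e) c ζ') := by
    intro ζ' h'
    exact ((sclC _).comp (iot hp hq σ e c)).analyticAt _ |>.comp (TD.kin_an h')
  have key := hX (Tc hp hq σ e c) (Sc σ c) (H720.farOk hp hq σ e c) _ _ (thE e p q σ)
    (nmE p q) (geE p q) (labE p q hp hq σ e c) 8 (coordE e p q hp σ) C hC hg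
    (D0.kap (sm e) c '' D0.Om (sm e) c) φ (AM c) TD.isOpen_image ?_ ?_ ?_ ?_ ?_ ?_ ?_
    (D0.kap (sm e) c ζ) ⟨ζ, h, rfl⟩
  · have hd := TD.kap_diff h
    have hdφ : DifferentiableAt ℝ φ (D0.kap (sm e) c ζ) :=
      (hφan ζ h).differentiableAt.restrictScalars ℝ
    have hcomp : fderiv ℝ (fun ζ => φ (D0.kap (sm e) c ζ)) ζ =
        (fderiv ℝ φ (D0.kap (sm e) c ζ)).comp (fderiv ℝ (D0.kap (sm e) c) ζ) :=
      fderiv_comp ζ hdφ (hd.restrictScalars ℝ)
    have hev : (fun ζ => φ (D0.kap (sm e) c ζ)) =ᶠ[𝓝 ζ]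
        fun ζ => (scl (rg (Tc hp hq σ e c))).comp (ior hp hq σ e c) ζ := by
      filter_upwards [TD.isOpen_Om.mem_nhds h] with ζ' h'
      exact hφ ζ' h'
    have hfd : fderiv ℝ (fun ζ => φ (D0.kap (sm e) c ζ)) ζ =
        (scl (rg (Tc hp hq σ e c))).comp (ior hp hq σ e c) := by
      rw [hev.fderiv_eq]
      exact ContinuousLinearMap.fderiv _
    have h1 := abs_det_smul hd (F 8 C (D0.kap (sm e) c ζ))
    have h2 : dens (F 8 C) (D0.kap (sm e) c ζ) = F 8 C (D0.kap (sm e) c ζ) fr := rfl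
    rw [h2, h1, key]
    change X.H _ _ (φ (D0.kap (sm e) c ζ))
      (fun a => fderiv ℝ φ (D0.kap (sm e) c ζ) (fderiv ℝ (D0.kap (sm e) c) ζ (fr a))) = _
    rw [hφ ζ h]
    unfold val
    rw [FW_apply]
    congr 1
    funext a
    have h3 := congrArg (fun L : (Fin 8 → ℂ) →L[ℝ] (rg (Tc hp hq σ e c)).Sp => L (fr a))
      (hcomp.symm.trans hfd)
    exact h3
  · rintro _ ⟨ζ', h', rfl⟩
    rw [hbase]
    exact TD.kap_mem h'
  · rintro _ ⟨ζ', h', rfl⟩
    exact hφan ζ' h'
  · rintro _ ⟨ζ', h', rfl⟩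
    rw [hφ ζ' h']
    exact H720.iot_dom hp hq σ e (H720.Om_subset_Kc _ h')
  · rintro _ ⟨ζ', h', rfl⟩ g
    rw [hφ ζ' h']
    exact gap_zero hp hq σ e c h' g
  · rintro _ ⟨ζ', h', rfl⟩ v i j
    exact AM_an c v i j _
  · rintro _ ⟨ζ', h', rfl⟩ v
    exact AM_det c v fun j => ((TD.kap_mem h').1 j).1
  · rintro _ ⟨ζ', h', rfl⟩ y
    rw [hφ ζ' h']
    rcases y with y | x
    · exact pt_edge p q hp hq σ e c _ _ y
    · exact pt_leg p q hp hq σ e c h' x

end Vale.Agent.P273.H728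

end
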