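import Mathlib

/-!
# P273, LIM-V: the cell decomposition of the base of a theta stratum

The base `bs s` (`s`: the two core marks are at the same end) is, up to a null set, the disjoint
union of the images of the maps `κ c` of the cells `c`, defined on `Ω`.
-/

noncomputable section

namespace Vale.Agent.P273.H728

open MeasureTheory Set

/-- The theta data: the centres of the three necks, the radius of the cuts, and a large radius. -/
structure TD where
  ct : Fin 3 → ℂ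
  ρ : ℝ
  R : ℝ
  pos : 0 < ρ
  sep : ∀ i j, i ≠ j → 2 * ρ < ‖ct i - ct j‖
  big : ∀ k, ‖ct k‖ + ρ < R

/-- The zones of a core mark: `inl false` is the core with `‖x‖ < R`, `inl true` is the core with
`‖x‖ > R`, `inr k` is the neck `k`. -/
abbrev Zone : Type := Bool ⊕ Fin 3

/-- A cell: the order bits of the six clusters, the zones of the two core marks, and the order of
the core marks if both are in the same neck. -/
structure Cell where
  bit : Fin 6 → Bool
  loc : Bool → Zone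
  ord : Bool
deriving DecidableEq, Fintype

/-- The two core marks are in the same neck, next to the same core. -/
def Cell.Same (s : Bool) (c : Cell) : Prop :=
  s = true ∧ c.loc true = c.loc false ∧ (c.loc true).isRight = true

instance (s : Bool) (c : Cell) : Decidable (c.Same s) := by unfold Cell.Same; infer_instance

/-- The bit `ord` is only used if the two core marks are in the same neck. -/
def Cell.Ok (s : Bool) (c : Cell) : Prop := c.ord = true ∨ c.Same s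

instance (s : Bool) (c : Cell) : Decidable (c.Ok s) := by unfold Cell.Ok; infer_instance

/-- The base: `s = true` if the two core marks are at the same end. -/
def bs (s : Bool) : Set (Fin 8 → ℂ) :=
  {b | (∀ j, b j ≠ 0 ∧ b j ≠ 1) ∧ (s = true → b 6 ≠ b 7)}

namespace TD

variable (D : TD)

theorem ct_ne {i j : Fin 3} (h : i ≠ j) : D.ct i - D.ct j ≠ 0 := by
  intro h0
  have := D.sep i j h
  rw [h0, norm_zero] at this
  linarith [D.pos]

/-- The Möbius map which sends the centres to `0, 1, ∞`. -/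
def M (x : ℂ) : ℂ := (x - D.ct 0) * (D.ct 1 - D.ct 2) / ((x - D.ct 2) * (D.ct 1 - D.ct 0))

theorem M_ne_zero {x : ℂ} (h0 : x ≠ D.ct 0) (h2 : x ≠ D.ct 2) : D.M x ≠ 0 := by
  unfold M
  refine div_ne_zero (mul_ne_zero (sub_ne_zero.2 h0) (D.ct_ne (by decide)))
    (mul_ne_zero (sub_ne_zero.2 h2) (D.ct_ne (by decide)))

theorem M_ne_one {x : ℂ} (h1 : x ≠ D.ct 1) (h2 : x ≠ D.ct 2) : D.M x ≠ 1 := by
  unfold M
  have h3 : (x - D.ct 2) * (D.ct 1 - D.ct 0) ≠ 0 :=
    mul_ne_zero (sub_ne_zero.2 h2) (D.ct_ne (by decide))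
  rw [Ne, div_eq_one_iff_eq h3]
  intro h4
  have h5 : (x - D.ct 1) * (D.ct 0 - D.ct 2) = 0 := by linear_combination h4
  rcases mul_eq_zero.1 h5 with h | h
  · exact h1 (sub_eq_zero.1 h)
  · exact D.ct_ne (by decide) h

theorem M_inj {x y : ℂ} (hx : x ≠ D.ct 2) (hy : y ≠ D.ct 2) (h : D.M x = D.M y) : x = y := by
  unfold M at h
  have h1 : (x - D.ct 2) * (D.ct 1 - D.ct 0) ≠ 0 :=
    mul_ne_zero (sub_ne_zero.2 hx) (D.ct_ne (by decide))
  have h2 : (y - D.ct 2) * (D.ct 1 - D.ct 0) ≠ 0 :=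
    mul_ne_zero (sub_ne_zero.2 hy) (D.ct_ne (by decide))
  rw [div_eq_div_iff h1 h2] at h
  have h3 : (D.ct 1 - D.ct 2) * (D.ct 1 - D.ct 0) * (D.ct 0 - D.ct 2) * (x - y) = 0 := by
    linear_combination h
  have h4 : (D.ct 1 - D.ct 2) * (D.ct 1 - D.ct 0) * (D.ct 0 - D.ct 2) ≠ 0 :=
    mul_ne_zero (mul_ne_zero (D.ct_ne (by decide)) (D.ct_ne (by decide))) (D.ct_ne (by decide))
  exact sub_eq_zero.1 ((mul_eq_zero.1 h3).resolve_left h4)

theorem M_surj {z : ℂ} (hz : z ≠ (D.ct 1 - D.ct 2) / (D.ct 1 - D.ct 0)) :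
    ∃ x, x ≠ D.ct 2 ∧ D.M x = z := by
  have h10 : D.ct 1 - D.ct 0 ≠ 0 := D.ct_ne (by decide)
  have hd : z * (D.ct 1 - D.ct 0) - (D.ct 1 - D.ct 2) ≠ 0 := by
    intro h
    exact hz (by rw [eq_div_iff h10]; exact sub_eq_zero.1 h)
  set d := z * (D.ct 1 - D.ct 0) - (D.ct 1 - D.ct 2) with hdd
  let x := (z * D.ct 2 * (D.ct 1 - D.ct 0) - D.ct 0 * (D.ct 1 - D.ct 2)) / d
  have hx2 : x - D.ct 2 = (D.ct 1 - D.ct 2) * (D.ct 2 - D.ct 0) / d := by
    simp only [x]
    rw [eq_div_iff hd, sub_mul, div_mul_cancel₀ _ hd, hdd]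
    ring
  have hne : x - D.ct 2 ≠ 0 := by
    rw [hx2]
    exact div_ne_zero (mul_ne_zero (D.ct_ne (by decide)) (D.ct_ne (by decide))) hd
  refine ⟨x, sub_ne_zero.1 hne, ?_⟩
  have hx0 : x - D.ct 0 = z * (D.ct 1 - D.ct 0) * (D.ct 2 - D.ct 0) / d := by
    simp only [x]
    rw [eq_div_iff hd, sub_mul, div_mul_cancel₀ _ hd, hdd]
    ring
  unfold M
  rw [div_eq_iff (mul_ne_zero hne h10), hx0, hx2]
  field_simp

theorem M_diff {x : ℂ} (h2 : x ≠ D.ct 2) : DifferentiableAt ℂ D.M x := by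
  unfold M
  refine DifferentiableAt.div (by fun_prop) (by fun_prop) ?_
  exact mul_ne_zero (sub_ne_zero.2 h2) (D.ct_ne (by decide))

theorem R_pos : 0 < D.R := by
  have := D.big 0
  have := norm_nonneg (D.ct 0)
  have := D.pos
  linarith

/-- The position on the `x`-line. -/
def place (l : Zone) (ζ : ℂ) : ℂ :=
  match l with
  | .inl false => ζ
  | .inl true => ζ⁻¹
  | .inr k => D.ct k + D.ρ * ζ

/-- The domain of the coordinate. -/
def dom (l : Zone) : Set ℂ :=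
  match l with
  | .inl false => {x | (∀ k, D.ρ < ‖x - D.ct k‖) ∧ ‖x‖ < D.R}
  | .inl true => {w | w ≠ 0 ∧ ‖w‖ < D.R⁻¹}
  | .inr _ => {ζ | ζ ≠ 0 ∧ ‖ζ‖ < 1}

/-- The region on the `x`-line. -/
def reg (l : Zone) : Set ℂ :=
  match l with
  | .inl false => {x | (∀ k, D.ρ < ‖x - D.ct k‖) ∧ ‖x‖ < D.R}
  | .inl true => {x | D.R < ‖x‖}
  | .inr k => {x | x ≠ D.ct k ∧ ‖x - D.ct k‖ < D.ρ}

theorem rho_ne : (D.ρ : ℂ) ≠ 0 := by exact_mod_cast D.pos.ne'

theorem place_mem {l : Zone} {ζ : ℂ} (h : ζ ∈ D.dom l) : D.place l ζ ∈ D.reg l := by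
  rcases l with (_ | _) | k
  · exact h
  · change D.R < ‖ζ⁻¹‖
    rw [norm_inv]
    exact (lt_inv_comm₀ D.R_pos (norm_pos_iff.2 h.1)).2 h.2
  · refine ⟨?_, ?_⟩
    · change D.ct k + D.ρ * ζ ≠ D.ct k
      intro h0
      have : (D.ρ : ℂ) * ζ = 0 := by linear_combination h0
      exact (mul_ne_zero D.rho_ne h.1) this
    · change ‖D.ct k + D.ρ * ζ - D.ct k‖ < D.ρ
      rw [add_sub_cancel_left, norm_mul, Complex.norm_real, Real.norm_of_nonneg D.pos.le]
      calc D.ρ * ‖ζ‖ < D.ρ * 1 := mul_lt_mul_of_pos_left h.2 D.pos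
        _ = D.ρ := mul_one _

theorem place_inj {l : Zone} {ζ ζ' : ℂ} (h : D.place l ζ = D.place l ζ') : ζ = ζ' := by
  rcases l with (_ | _) | k
  · exact h
  · exact inv_injective h
  · change D.ct k + D.ρ * ζ = D.ct k + D.ρ * ζ' at h
    exact mul_left_cancel₀ D.rho_ne (add_left_cancel h)

theorem place_surj {l : Zone} {x : ℂ} (h : x ∈ D.reg l) :
    ∃ ζ ∈ D.dom l, D.place l ζ = x := by
  rcases l with (_ | _) | k
  · exact ⟨x, h, rfl⟩
  · have hx : D.R < ‖x‖ := h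
    have hx0 : x ≠ 0 := norm_pos_iff.1 (D.R_pos.trans hx)
    refine ⟨x⁻¹, ⟨inv_ne_zero hx0, ?_⟩, inv_inv x⟩
    rw [norm_inv]
    exact (inv_lt_inv₀ (D.R_pos.trans hx) D.R_pos).2 hx
  · have e : D.ct k + D.ρ * ((x - D.ct k) / D.ρ) = x := by
      rw [mul_div_cancel₀ _ D.rho_ne]; ring
    refine ⟨(x - D.ct k) / D.ρ, ⟨div_ne_zero (sub_ne_zero.2 h.1) D.rho_ne, ?_⟩, e⟩
    rw [norm_div, Complex.norm_real, Real.norm_of_nonneg D.pos.le, div_lt_one D.pos]
    exact h.2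

theorem norm_lt_of_near {k : Fin 3} {x : ℂ} (h : ‖x - D.ct k‖ < D.ρ) : ‖x‖ < D.R := by
  have h1 : ‖x‖ ≤ ‖x - D.ct k‖ + ‖D.ct k‖ := by
    have : x = (x - D.ct k) + D.ct k := by ring
    calc ‖x‖ = ‖(x - D.ct k) + D.ct k‖ := by rw [← this]
      _ ≤ _ := norm_add_le _ _
  have := D.big k
  linarith

theorem reg_disj {l l' : Zone} {x : ℂ} (h : x ∈ D.reg l) (h' : x ∈ D.reg l') :
    l = l' := by
  have key : ∀ k k' : Fin 3, ‖x - D.ct k‖ < D.ρ → ‖x - D.ct k'‖ < D.ρ → k = k' := by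
    intro k k' h2 h3
    by_contra hk
    have := D.sep k k' hk
    have h1 : ‖D.ct k - D.ct k'‖ ≤ ‖x - D.ct k‖ + ‖x - D.ct k'‖ := by
      have : D.ct k - D.ct k' = -(x - D.ct k) + (x - D.ct k') := by ring
      rw [this]
      refine (norm_add_le _ _).trans ?_
      rw [norm_neg]
    linarith
  rcases l with (_ | _) | k <;> rcases l' with (_ | _) | k'
  · rfl
  · exact absurd h.2 (not_lt.2 (le_of_lt h'))
  · exact absurd h'.2 (not_lt.2 (h.1 k').le)
  · exact absurd h'.2 (not_lt.2 (le_of_lt h))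
  · rfl
  · exact absurd (D.norm_lt_of_near h'.2) (not_lt.2 (le_of_lt h))
  · exact absurd h.2 (not_lt.2 (h'.1 k).le)
  · exact absurd (D.norm_lt_of_near h.2) (not_lt.2 (le_of_lt h'))
  · rw [key k k' h.2 h'.2]

theorem reg_ne {l : Zone} {x : ℂ} (h : x ∈ D.reg l) (k : Fin 3) : x ≠ D.ct k := by
  intro h0
  rcases l with (_ | _) | k'
  · have := h.1 k
    rw [h0, sub_self, norm_zero] at this
    linarith [D.pos]
  · have h1 : D.R < ‖x‖ := h
    rw [h0] at h1
    have := D.big k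
    linarith [D.pos]
  · by_cases hk : k = k'
    · subst hk; exact h.1 h0
    · have h1 := D.sep k k' hk
      have h2 := h.2
      rw [h0] at h2
      linarith [D.pos]

/-- The exceptional set of the `x`-line. -/
theorem reg_cover {x : ℂ} (h1 : ∀ k, x ≠ D.ct k) (h2 : ∀ k, ‖x - D.ct k‖ ≠ D.ρ)
    (h3 : ‖x‖ ≠ D.R) : ∃ l, x ∈ D.reg l := by
  by_cases h : ∃ k, ‖x - D.ct k‖ < D.ρ
  · obtain ⟨k, hk⟩ := h
    exact ⟨.inr k, h1 k, hk⟩
  · push Not at h
    rcases lt_or_gt_of_ne h3 with h4 | h4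
    · exact ⟨.inl false, fun k => lt_of_le_of_ne (h k) (h2 k).symm, h4⟩
    · exact ⟨.inl true, h4⟩

end TD

end Vale.Agent.P273.H728

end
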