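import Vale.Agent.P273.H728.Cells

/-!
# P273, LIM-V: the maps of the cells
-/

noncomputable section

namespace Vale.Agent.P273.H728

open MeasureTheory Set

namespace TD

variable (D : TD) (s : Bool) (c : Cell)

/-- The position of the core mark `b` (`true`: `A`, coordinate `6`; `false`: `B`, coordinate `7`). -/
def xA (ζ : Fin 8 → ℂ) : ℂ :=
  D.place (c.loc true) (if c.Same s ∧ c.ord = false then ζ 7 * ζ 6 else ζ 6)

/-- The position of the core mark `B`. -/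
def xB (ζ : Fin 8 → ℂ) : ℂ :=
  D.place (c.loc false) (if c.Same s ∧ c.ord = true then ζ 6 * ζ 7 else ζ 7)

/-- The map of the cell. -/
def kap (ζ : Fin 8 → ℂ) (j : Fin 8) : ℂ :=
  if h : j.1 < 6 then (if c.bit ⟨j.1, h⟩ = true then ζ j else (ζ j)⁻¹)
  else if j = 6 then D.M (D.xA s c ζ) else D.M (D.xB s c ζ)

/-- The domain of the map of the cell. -/
def Om : Set (Fin 8 → ℂ) :=
  {ζ | (∀ j : Fin 8, j.1 < 6 → ζ j ≠ 0 ∧ ‖ζ j‖ < 1) ∧ ζ 6 ∈ D.dom (c.loc true) ∧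
    ζ 7 ∈ D.dom (c.loc false) ∧ (s = true → D.xA s c ζ ≠ D.xB s c ζ)}

variable {D s c}

theorem mul_dom {k : Fin 3} {z w : ℂ} (hz : z ∈ D.dom (.inr k)) (hw : w ∈ D.dom (.inr k)) :
    z * w ∈ D.dom (.inr k) := by
  refine ⟨mul_ne_zero hz.1 hw.1, ?_⟩
  rw [norm_mul]
  calc ‖z‖ * ‖w‖ < 1 * 1 := mul_lt_mul'' hz.2 hw.2 (norm_nonneg _) (norm_nonneg _)
    _ = 1 := one_mul _

theorem xA_mem {ζ : Fin 8 → ℂ} (h : ζ ∈ D.Om s c) : D.xA s c ζ ∈ D.reg (c.loc true) := by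
  refine D.place_mem ?_
  split_ifs with h1
  · obtain ⟨k, hk⟩ := Sum.isRight_iff.1 h1.1.2.2
    have h6 := h.2.1
    have h7 := h.2.2.1
    rw [← h1.1.2.1] at h7
    rw [hk] at h6 h7 ⊢
    exact mul_dom h7 h6
  · exact h.2.1

theorem xB_mem {ζ : Fin 8 → ℂ} (h : ζ ∈ D.Om s c) : D.xB s c ζ ∈ D.reg (c.loc false) := by
  refine D.place_mem ?_
  split_ifs with h1
  · obtain ⟨k, hk⟩ := Sum.isRight_iff.1 h1.1.2.2
    have h6 := h.2.1
    have h7 := h.2.2.1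
    rw [← h1.1.2.1] at h7 ⊢
    rw [hk] at h6 h7 ⊢
    exact mul_dom h6 h7
  · exact h.2.2.1

theorem kap_six (ζ : Fin 8 → ℂ) : D.kap s c ζ 6 = D.M (D.xA s c ζ) := by
  simp [kap]

theorem kap_seven (ζ : Fin 8 → ℂ) : D.kap s c ζ 7 = D.M (D.xB s c ζ) := by
  have h1 : ¬ ((7 : Fin 8).1 < 6) := by decide
  have h2 : (7 : Fin 8) ≠ 6 := by decide
  rw [kap, dif_neg h1, if_neg h2]

theorem kap_lt (ζ : Fin 8 → ℂ) {j : Fin 8} (h : j.1 < 6) :
    D.kap s c ζ j = if c.bit ⟨j.1, h⟩ = true then ζ j else (ζ j)⁻¹ := by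
  rw [kap, dif_pos h]

theorem fin8_cases (j : Fin 8) : j.1 < 6 ∨ j = 6 ∨ j = 7 := by
  revert j; decide

theorem kap_mem {ζ : Fin 8 → ℂ} (h : ζ ∈ D.Om s c) : D.kap s c ζ ∈ bs s := by
  refine ⟨fun j => ?_, fun hs => ?_⟩
  · rcases fin8_cases j with hj | rfl | rfl
    · rw [kap_lt ζ hj]
      obtain ⟨h1, h2⟩ := h.1 j hj
      split_ifs
      · exact ⟨h1, fun h0 => by rw [h0, norm_one] at h2; exact lt_irrefl _ h2⟩
      · refine ⟨inv_ne_zero h1, fun h0 => ?_⟩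
        rw [inv_eq_one] at h0
        rw [h0, norm_one] at h2; exact lt_irrefl _ h2
    · rw [kap_six]
      exact ⟨D.M_ne_zero (D.reg_ne (xA_mem h) 0) (D.reg_ne (xA_mem h) 2),
        D.M_ne_one (D.reg_ne (xA_mem h) 1) (D.reg_ne (xA_mem h) 2)⟩
    · rw [kap_seven]
      exact ⟨D.M_ne_zero (D.reg_ne (xB_mem h) 0) (D.reg_ne (xB_mem h) 2),
        D.M_ne_one (D.reg_ne (xB_mem h) 1) (D.reg_ne (xB_mem h) 2)⟩
  · rw [kap_six, kap_seven]
    intro h1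
    exact h.2.2.2 hs (D.M_inj (D.reg_ne (xA_mem h) 2) (D.reg_ne (xB_mem h) 2) h1)

theorem kap_lt_norm {ζ : Fin 8 → ℂ} (h : ζ ∈ D.Om s c) {j : Fin 8} (hj : j.1 < 6) :
    (c.bit ⟨j.1, hj⟩ = true → ‖D.kap s c ζ j‖ < 1) ∧
      (c.bit ⟨j.1, hj⟩ = false → 1 < ‖D.kap s c ζ j‖) := by
  obtain ⟨h1, h2⟩ := h.1 j hj
  constructor
  · intro hb
    rw [kap_lt ζ hj, if_pos hb]
    exact h2
  · intro hb
    rw [kap_lt ζ hj, if_neg (by simp [hb]), norm_inv]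
    exact (one_lt_inv₀ (norm_pos_iff.2 h1)).2 h2

theorem order_true {ζ : Fin 8 → ℂ} (h : ζ ∈ D.Om s c) (hs : c.Same s) (ho : c.ord = true)
    {k : Fin 3} (hk : c.loc true = .inr k) : ‖D.xB s c ζ - D.ct k‖ < ‖D.xA s c ζ - D.ct k‖ := by
  have hk' : c.loc false = .inr k := by rw [← hs.2.1, hk]
  have h6 := h.2.1
  have h7 := h.2.2.1
  rw [hk] at h6
  rw [hk'] at h7
  have e1 : D.xA s c ζ - D.ct k = D.ρ * ζ 6 := by
    unfold xA
    rw [if_neg (by simp [ho]), hk]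
    simp [place]
  have e2 : D.xB s c ζ - D.ct k = D.ρ * ζ 6 * ζ 7 := by
    unfold xB
    rw [if_pos ⟨hs, ho⟩, hk']
    simp [place, mul_assoc]
  rw [e1, e2, norm_mul _ (ζ 7)]
  have h3 : 0 < ‖(D.ρ : ℂ) * ζ 6‖ := norm_pos_iff.2 (mul_ne_zero D.rho_ne h6.1)
  calc ‖(D.ρ : ℂ) * ζ 6‖ * ‖ζ 7‖ < ‖(D.ρ : ℂ) * ζ 6‖ * 1 := mul_lt_mul_of_pos_left h7.2 h3
    _ = _ := mul_one _

theorem order_false {ζ : Fin 8 → ℂ} (h : ζ ∈ D.Om s c) (hs : c.Same s) (ho : c.ord = false)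
    {k : Fin 3} (hk : c.loc true = .inr k) : ‖D.xA s c ζ - D.ct k‖ < ‖D.xB s c ζ - D.ct k‖ := by
  have hk' : c.loc false = .inr k := by rw [← hs.2.1, hk]
  have h6 := h.2.1
  have h7 := h.2.2.1
  rw [hk] at h6
  rw [hk'] at h7
  have e1 : D.xB s c ζ - D.ct k = D.ρ * ζ 7 := by
    unfold xB
    rw [if_neg (by simp [ho]), hk']
    simp [place]
  have e2 : D.xA s c ζ - D.ct k = D.ρ * ζ 7 * ζ 6 := by
    unfold xA
    rw [if_pos ⟨hs, ho⟩, hk]
    simp [place, mul_assoc]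
  rw [e1, e2, norm_mul _ (ζ 6)]
  have h3 : 0 < ‖(D.ρ : ℂ) * ζ 7‖ := norm_pos_iff.2 (mul_ne_zero D.rho_ne h7.1)
  calc ‖(D.ρ : ℂ) * ζ 7‖ * ‖ζ 6‖ < ‖(D.ρ : ℂ) * ζ 7‖ * 1 := mul_lt_mul_of_pos_left h6.2 h3
    _ = _ := mul_one _

/-- **The maps are injective.** -/
theorem kap_inj : InjOn (D.kap s c) (D.Om s c) := by
  intro ζ h ζ' h' hh
  have hA : D.xA s c ζ = D.xA s c ζ' := by
    refine D.M_inj (D.reg_ne (xA_mem h) 2) (D.reg_ne (xA_mem h') 2) ?_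
    rw [← kap_six, ← kap_six, hh]
  have hB : D.xB s c ζ = D.xB s c ζ' := by
    refine D.M_inj (D.reg_ne (xB_mem h) 2) (D.reg_ne (xB_mem h') 2) ?_
    rw [← kap_seven, ← kap_seven, hh]
  have hA' := D.place_inj hA
  have hB' := D.place_inj hB
  have h67 : ζ 6 = ζ' 6 ∧ ζ 7 = ζ' 7 := by
    by_cases hs : c.Same s
    · obtain ⟨k, hk⟩ := Sum.isRight_iff.1 hs.2.2
      have h6 := h.2.1
      have h7 := h.2.2.1
      rw [hk] at h6
      rw [← hs.2.1, hk] at h7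
      cases ho : c.ord
      · rw [if_pos ⟨hs, ho⟩, if_pos ⟨hs, ho⟩] at hA'
        rw [if_neg (by simp [ho]), if_neg (by simp [ho])] at hB'
        rw [← hB'] at hA'
        exact ⟨mul_left_cancel₀ h7.1 hA', hB'⟩
      · rw [if_pos ⟨hs, ho⟩, if_pos ⟨hs, ho⟩] at hB'
        rw [if_neg (by simp [ho]), if_neg (by simp [ho])] at hA'
        rw [← hA'] at hB'
        exact ⟨hA', mul_left_cancel₀ h6.1 hB'⟩
    · rw [if_neg (fun h => hs h.1), if_neg (fun h => hs h.1)] at hA' hB'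
      exact ⟨hA', hB'⟩
  funext j
  rcases fin8_cases j with hj | rfl | rfl
  · have h1 := congrFun hh j
    rw [kap_lt ζ hj, kap_lt ζ' hj] at h1
    split_ifs at h1
    · exact h1
    · exact inv_injective h1
  · exact h67.1
  · exact h67.2

/-- **The images are disjoint.** -/
theorem kap_disj {c' : Cell} (hc : c.Ok s) (hc' : c'.Ok s) {ζ ζ' : Fin 8 → ℂ} (h : ζ ∈ D.Om s c)
    (h' : ζ' ∈ D.Om s c') (hh : D.kap s c ζ = D.kap s c' ζ') : c = c' := by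
  have hA : D.xA s c ζ = D.xA s c' ζ' := by
    refine D.M_inj (D.reg_ne (xA_mem h) 2) (D.reg_ne (xA_mem h') 2) ?_
    rw [← kap_six, ← kap_six, hh]
  have hB : D.xB s c ζ = D.xB s c' ζ' := by
    refine D.M_inj (D.reg_ne (xB_mem h) 2) (D.reg_ne (xB_mem h') 2) ?_
    rw [← kap_seven, ← kap_seven, hh]
  have hlA : c.loc true = c'.loc true := D.reg_disj (xA_mem h) (hA ▸ xA_mem h')
  have hlB : c.loc false = c'.loc false := D.reg_disj (xB_mem h) (hB ▸ xB_mem h')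
  have hloc : c.loc = c'.loc := by
    funext b; cases b
    · exact hlB
    · exact hlA
  have hbit : c.bit = c'.bit := by
    funext t
    let j : Fin 8 := ⟨t.1, by omega⟩
    have hj : j.1 < 6 := t.2
    have h1 := kap_lt_norm h hj
    have h2 := kap_lt_norm h' hj
    rw [hh] at h1
    cases hb : c.bit t <;> cases hb' : c'.bit t
    · rfl
    · exact absurd (h1.2 hb) (not_lt.2 (h2.1 hb').le)
    · exact absurd (h1.1 hb) (not_lt.2 (h2.2 hb').le)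
    · rfl
  have hsame : c.Same s ↔ c'.Same s := by unfold Cell.Same; rw [hloc]
  have hord : c.ord = c'.ord := by
    by_cases hs : c.Same s
    · have hs' := hsame.1 hs
      obtain ⟨k, hk⟩ := Sum.isRight_iff.1 hs.2.2
      have hk' : c'.loc true = .inr k := hlA ▸ hk
      cases ho : c.ord <;> cases ho' : c'.ord
      · rfl
      · have h1 := order_false h hs ho hk
        have h2 := order_true h' hs' ho' hk'
        rw [hA, hB] at h1
        exact absurd h1 (not_lt.2 h2.le)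
      · have h1 := order_true h hs ho hk
        have h2 := order_false h' hs' ho' hk'
        rw [hA, hB] at h1
        exact absurd h1 (not_lt.2 h2.le)
      · rfl
    · rw [hc.resolve_right hs, hc'.resolve_right (fun h => hs (hsame.2 h))]
  cases c; cases c'
  simp only at hloc hbit hord
  rw [hloc, hbit, hord]

/-- A vector with prescribed coordinates `6` and `7`. -/
def mk8 (z : Fin 8 → ℂ) (a b : ℂ) (j : Fin 8) : ℂ := if j = 6 then a else if j = 7 then b else z j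

theorem mk8_six (z : Fin 8 → ℂ) (a b : ℂ) : mk8 z a b 6 = a := if_pos rfl

theorem mk8_seven (z : Fin 8 → ℂ) (a b : ℂ) : mk8 z a b 7 = b := by
  unfold mk8
  rw [if_neg (by decide), if_pos rfl]

theorem mk8_lt (z : Fin 8 → ℂ) (a b : ℂ) {j : Fin 8} (hj : j.1 < 6) : mk8 z a b j = z j := by
  have h6 : j ≠ 6 := by rintro rfl; exact absurd hj (by decide)
  have h7 : j ≠ 7 := by rintro rfl; exact absurd hj (by decide)
  unfold mk8
  rw [if_neg h6, if_neg h7]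

/-- A point of the domain from its coordinates. -/
theorem of_mk8 {z b : Fin 8 → ℂ} {a a' x y : ℂ} (hz : ∀ j : Fin 8, j.1 < 6 → z j ≠ 0 ∧ ‖z j‖ < 1)
    (hz' : ∀ (j : Fin 8) (hj : j.1 < 6), (if c.bit ⟨j.1, hj⟩ = true then z j else (z j)⁻¹) = b j)
    (ha : a ∈ D.dom (c.loc true)) (ha' : a' ∈ D.dom (c.loc false))
    (eA : D.xA s c (mk8 z a a') = x) (eB : D.xB s c (mk8 z a a') = y) (hxy : s = true → x ≠ y)
    (hxM : D.M x = b 6) (hyM : D.M y = b 7) : ∃ ζ ∈ D.Om s c, D.kap s c ζ = b := by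
  refine ⟨mk8 z a a', ⟨fun j hj => ?_, ?_, ?_, fun h => by rw [eA, eB]; exact hxy h⟩, ?_⟩
  · rw [mk8_lt _ _ _ hj]
    exact hz j hj
  · rw [mk8_six]
    exact ha
  · rw [mk8_seven]
    exact ha'
  · funext j
    rcases fin8_cases j with hj | rfl | rfl
    · rw [kap_lt _ hj, mk8_lt _ _ _ hj]
      exact hz' j hj
    · rw [kap_six, ← hxM, eA]
    · rw [kap_seven, ← hyM, eB]

theorem M_one : D.M (D.ct 1) = 1 := by
  unfold M
  have e : (D.ct 1 - D.ct 2) * (D.ct 1 - D.ct 0) ≠ 0 :=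
    mul_ne_zero (D.ct_ne (by decide)) (D.ct_ne (by decide))
  have e2 : (D.ct 1 - D.ct 0) * (D.ct 1 - D.ct 2) = (D.ct 1 - D.ct 2) * (D.ct 1 - D.ct 0) := by
    ring
  rw [e2, div_self e]

theorem ne_ct {x z : ℂ} (hx : x ≠ D.ct 2) (hxM : D.M x = z) (h0 : z ≠ 0) (h1 : z ≠ 1)
    (k : Fin 3) : x ≠ D.ct k := by
  intro hk
  fin_cases k
  · apply h0
    rw [← hxM, hk]
    simp [M]
  · apply h1
    rw [← hxM, hk]
    exact M_one
  · exact hx hk

/-- **The images cover the base** up to the exceptional sets. -/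
theorem kap_cover {b : Fin 8 → ℂ} (hb : b ∈ bs s) (h1 : ∀ j : Fin 8, j.1 < 6 → ‖b j‖ ≠ 1)
    {x y : ℂ} (hx : x ≠ D.ct 2) (hy : y ≠ D.ct 2) (hxM : D.M x = b 6) (hyM : D.M y = b 7)
    (hx2 : ∀ k, ‖x - D.ct k‖ ≠ D.ρ) (hy2 : ∀ k, ‖y - D.ct k‖ ≠ D.ρ)
    (hx3 : ‖x‖ ≠ D.R) (hy3 : ‖y‖ ≠ D.R)
    (hxy : s = true → ∀ k, ‖x - D.ct k‖ ≠ ‖y - D.ct k‖) :
    ∃ c : Cell, c.Ok s ∧ ∃ ζ ∈ D.Om s c, D.kap s c ζ = b := by
  have hxk : ∀ k, x ≠ D.ct k := ne_ct hx hxM (hb.1 6).1 (hb.1 6).2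
  have hyk : ∀ k, y ≠ D.ct k := ne_ct hy hyM (hb.1 7).1 (hb.1 7).2
  have hxy' : s = true → x ≠ y := by
    intro hs h
    exact hxy hs 0 (by rw [h])
  obtain ⟨lA, hlA⟩ := D.reg_cover hxk hx2 hx3
  obtain ⟨lB, hlB⟩ := D.reg_cover hyk hy2 hy3
  obtain ⟨zA, hzA, hzA'⟩ := D.place_surj hlA
  obtain ⟨zB, hzB, hzB'⟩ := D.place_surj hlB
  let bit : Fin 6 → Bool := fun t => decide (‖b ⟨t.1, by omega⟩‖ < 1)
  -- the first six coordinates
  let z0 : Fin 8 → ℂ := fun j => if ‖b j‖ < 1 then b j else (b j)⁻¹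
  have hz0 : ∀ j : Fin 8, j.1 < 6 → z0 j ≠ 0 ∧ ‖z0 j‖ < 1 := by
    intro j hj
    simp only [z0]
    split_ifs with h
    · exact ⟨(hb.1 j).1, h⟩
    · refine ⟨inv_ne_zero (hb.1 j).1, ?_⟩
      rw [norm_inv]
      exact inv_lt_one_of_one_lt₀ (lt_of_le_of_ne (not_lt.1 h) (h1 j hj).symm)
  have hz0' : ∀ (j : Fin 8) (hj : j.1 < 6), (if bit ⟨j.1, hj⟩ = true then z0 j else (z0 j)⁻¹) = b j := by
    intro j hj
    have e : (⟨j.1, by omega⟩ : Fin 8) = j := rfl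
    simp only [bit, z0, decide_eq_true_eq, e]
    split_ifs with h
    · rfl
    · exact inv_inv _
  by_cases hs : s = true ∧ lA = lB ∧ lA.isRight = true
  · obtain ⟨hs, hl, hn⟩ := hs
    obtain ⟨k, rfl⟩ := Sum.isRight_iff.1 hn
    subst hl
    have exA : x - D.ct k = D.ρ * zA := by rw [← hzA']; simp [place]
    have exB : y - D.ct k = D.ρ * zB := by rw [← hzB']; simp [place]
    have hne : ‖zA‖ ≠ ‖zB‖ := by
      intro h
      apply hxy hs k
      rw [exA, exB, norm_mul, norm_mul, h]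
    rcases lt_or_gt_of_ne hne with hlt | hlt
    · -- `B` is next to the core
      let c : Cell := ⟨bit, fun _ => .inr k, false⟩
      have hS : c.Same s := ⟨hs, rfl, by simp [c]⟩
      have hd : zA / zB ∈ D.dom (.inr k) := by
        refine ⟨div_ne_zero hzA.1 hzB.1, ?_⟩
        rw [norm_div, div_lt_one (norm_pos_iff.2 hzB.1)]
        exact hlt
      refine ⟨c, Or.inr hS, of_mk8 (a := zA / zB) (a' := zB) hz0 hz0' hd hzB (x := x) (y := y)
        ?_ ?_ hxy' hxM hyM⟩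
      · unfold xA
        rw [if_pos ⟨hS, rfl⟩, mk8_six, mk8_seven, mul_div_cancel₀ _ hzB.1, ← hzA']
      · unfold xB
        rw [if_neg (by simp [c]), mk8_seven, ← hzB']
    · let c : Cell := ⟨bit, fun _ => .inr k, true⟩
      have hS : c.Same s := ⟨hs, rfl, by simp [c]⟩
      have hd : zB / zA ∈ D.dom (.inr k) := by
        refine ⟨div_ne_zero hzB.1 hzA.1, ?_⟩
        rw [norm_div, div_lt_one (norm_pos_iff.2 hzA.1)]
        exact hlt
      refine ⟨c, Or.inr hS, of_mk8 (a := zA) (a' := zB / zA) hz0 hz0' hzA hd (x := x) (y := y)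
        ?_ ?_ hxy' hxM hyM⟩
      · unfold xA
        rw [if_neg (by simp [c]), mk8_six, ← hzA']
      · unfold xB
        rw [if_pos ⟨hS, rfl⟩, mk8_six, mk8_seven, mul_div_cancel₀ _ hzA.1, ← hzB']
  · let c : Cell := ⟨bit, fun b => if b = true then lA else lB, true⟩
    have hS : ¬ c.Same s := by
      rintro ⟨h1, h2, h3⟩
      exact hs ⟨h1, h2, h3⟩
    refine ⟨c, Or.inl rfl, of_mk8 (a := zA) (a' := zB) hz0 hz0' hzA hzB (x := x) (y := y)
        ?_ ?_ hxy' hxM hyM⟩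
    · unfold xA
      rw [if_neg (fun h => hS h.1), mk8_six, ← hzA']
      rfl
    · unfold xB
      rw [if_neg (fun h => hS h.1), mk8_seven, ← hzB']
      rfl

end TD

end Vale.Agent.P273.H728

end
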