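import Vale.Agent.P273.H728.Cells2

/-!
# P273, LIM-V: integration over the cells
-/

noncomputable section

namespace Vale.Agent.P273.H728

open MeasureTheory Set

namespace TD

variable {D : TD} {s : Bool} {c : Cell}

theorem place_diff {l : Zone} {f : (Fin 8 → ℂ) → ℂ} {ζ : Fin 8 → ℂ}
    (h : DifferentiableAt ℂ f ζ) (hf : l = .inl true → f ζ ≠ 0) :
    DifferentiableAt ℂ (fun ζ => D.place l (f ζ)) ζ := by
  rcases l with (_ | _) | k
  · exact h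
  · exact h.inv (hf rfl)
  · change DifferentiableAt ℂ (fun ζ => D.ct k + D.ρ * f ζ) ζ
    exact (h.const_mul _).const_add _

/-- The set where the positions are holomorphic. -/
def Om0 (D : TD) (c : Cell) : Set (Fin 8 → ℂ) :=
  {ζ | (∀ j : Fin 8, j.1 < 6 → ζ j ≠ 0 ∧ ‖ζ j‖ < 1) ∧ ζ 6 ∈ D.dom (c.loc true) ∧
    ζ 7 ∈ D.dom (c.loc false)}

theorem Om_sub {ζ : Fin 8 → ℂ} (h : ζ ∈ D.Om s c) : ζ ∈ Om0 D c := ⟨h.1, h.2.1, h.2.2.1⟩

theorem xA_diff {ζ : Fin 8 → ℂ} (h : ζ ∈ Om0 D c) : DifferentiableAt ℂ (D.xA s c) ζ := by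
  unfold xA
  by_cases h1 : c.Same s ∧ c.ord = false
  · simp only [h1, and_self, if_true]
    refine place_diff (by fun_prop) fun h2 => ?_
    have := h1.1.2.2
    rw [h2] at this
    exact absurd this (by simp)
  · simp only [if_neg h1]
    refine place_diff (by fun_prop) fun h2 => ?_
    have h3 := h.2.1
    rw [h2] at h3
    exact h3.1

theorem xB_diff {ζ : Fin 8 → ℂ} (h : ζ ∈ Om0 D c) : DifferentiableAt ℂ (D.xB s c) ζ := by
  unfold xB
  by_cases h1 : c.Same s ∧ c.ord = true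
  · simp only [h1, and_self, if_true]
    refine place_diff (by fun_prop) fun h2 => ?_
    have h3 := h1.1.2.1
    rw [h2] at h3
    have := h1.1.2.2
    rw [h3] at this
    exact absurd this (by simp)
  · simp only [if_neg h1]
    refine place_diff (by fun_prop) fun h2 => ?_
    have h3 := h.2.2
    rw [h2] at h3
    exact h3.1

/-- **The maps are holomorphic.** -/
theorem kap_diff {ζ : Fin 8 → ℂ} (h : ζ ∈ D.Om s c) : DifferentiableAt ℂ (D.kap s c) ζ := by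
  rw [differentiableAt_pi]
  intro j
  rcases fin8_cases j with hj | rfl | rfl
  · have e : (fun ζ => D.kap s c ζ j) = fun ζ => if c.bit ⟨j.1, hj⟩ = true then ζ j else (ζ j)⁻¹ := by
      funext ζ
      exact kap_lt ζ hj
    rw [e]
    split_ifs
    · fun_prop
    · exact DifferentiableAt.inv (by fun_prop) (h.1 j hj).1
  · have e : (fun ζ => D.kap s c ζ 6) = fun ζ => D.M (D.xA s c ζ) := funext fun ζ => kap_six ζ
    rw [e]
    exact (D.M_diff (D.reg_ne (xA_mem h) 2)).comp ζ (xA_diff (Om_sub h))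
  · have e : (fun ζ => D.kap s c ζ 7) = fun ζ => D.M (D.xB s c ζ) := funext fun ζ => kap_seven ζ
    rw [e]
    exact (D.M_diff (D.reg_ne (xB_mem h) 2)).comp ζ (xB_diff (Om_sub h))

theorem isOpen_dom (l : Zone) : IsOpen (D.dom l) := by
  rcases l with (_ | _) | k
  · have e : D.dom (.inl false) = (⋂ k : Fin 3, {x | D.ρ < ‖x - D.ct k‖}) ∩ {x | ‖x‖ < D.R} := by
      ext x; simp [dom]
    rw [e]
    exact (isOpen_iInter_of_finite fun k => isOpen_lt (by fun_prop) (by fun_prop)).inter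
      (isOpen_lt (by fun_prop) (by fun_prop))
  · exact isOpen_ne.inter (isOpen_lt continuous_norm continuous_const)
  · exact isOpen_ne.inter (isOpen_lt continuous_norm continuous_const)

theorem isOpen_Om0 : IsOpen (Om0 D c) := by
  have e : Om0 D c = (⋂ j : Fin 8, {ζ : Fin 8 → ℂ | j.1 < 6 → ζ j ≠ 0 ∧ ‖ζ j‖ < 1}) ∩
      ({ζ | ζ 6 ∈ D.dom (c.loc true)} ∩ {ζ | ζ 7 ∈ D.dom (c.loc false)}) := by
    ext ζ
    simp [Om0]
  rw [e]
  refine (isOpen_iInter_of_finite fun j => ?_).inter (IsOpen.inter ?_ ?_)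
  · by_cases hj : j.1 < 6
    · have e : {ζ : Fin 8 → ℂ | j.1 < 6 → ζ j ≠ 0 ∧ ‖ζ j‖ < 1} =
          {ζ | ζ j ≠ 0} ∩ {ζ | ‖ζ j‖ < 1} := by
        ext ζ; simp [hj]
      rw [e]
      exact (isOpen_ne_fun (by fun_prop) (by fun_prop)).inter (isOpen_lt (by fun_prop) (by fun_prop))
    · have e : {ζ : Fin 8 → ℂ | j.1 < 6 → ζ j ≠ 0 ∧ ‖ζ j‖ < 1} = univ := by
        ext ζ; simp [hj]
      rw [e]
      exact isOpen_univ
  · exact (D.isOpen_dom _).preimage (continuous_apply 6)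
  · exact (D.isOpen_dom _).preimage (continuous_apply 7)

theorem isOpen_Om : IsOpen (D.Om s c) := by
  by_cases hs : s = true
  · have e : D.Om s c = Om0 D c ∩ (fun ζ => D.xA s c ζ - D.xB s c ζ) ⁻¹' {0}ᶜ := by
      ext ζ
      simp only [Om, Om0, hs, forall_const, mem_setOf_eq, mem_inter_iff, mem_preimage,
        mem_compl_iff, mem_singleton_iff, sub_eq_zero]
      tauto
    rw [e]
    refine ContinuousOn.isOpen_inter_preimage (fun ζ hζ => ?_) isOpen_Om0 isOpen_compl_singleton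
    exact ((xA_diff hζ).continuousAt.sub (xB_diff hζ).continuousAt).continuousWithinAt
  · have e : D.Om s c = Om0 D c := by
      ext ζ
      simp [Om, Om0, hs]
    rw [e]
    exact isOpen_Om0

/-! ### Null sets -/

theorem null_coord {S : Set ℂ} (hS : volume S = 0) (j : Fin 8) :
    volume {b : Fin 8 → ℂ | b j ∈ S} = 0 := by
  have := Measure.pi_eval_preimage_null (μ := fun _ : Fin 8 => (volume : Measure ℂ)) (i := j) hS
  exact this

theorem null_sphere (x : ℂ) (r : ℝ) : volume {z : ℂ | ‖z - x‖ = r} = 0 := by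
  have h : {z : ℂ | ‖z - x‖ = r} = Metric.sphere x r := by
    ext z; simp [mem_sphere_iff_norm]
  rw [h]
  exact Measure.addHaar_sphere _ _ _

theorem null_image {n : ℕ} {f : (Fin n → ℂ) → Fin n → ℂ} {S : Set (Fin n → ℂ)}
    (hf : ∀ x ∈ S, DifferentiableAt ℂ f x) (hS : volume S = 0) : volume (f '' S) = 0 :=
  addHaar_image_eq_zero_of_differentiableOn_of_addHaar_eq_zero volume
    (fun x hx => ((hf x hx).restrictScalars ℝ).differentiableWithinAt) hS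

theorem null_M (a : ℂ) (r : ℝ) :
    volume {z : ℂ | ∃ x, x ≠ D.ct 2 ∧ D.M x = z ∧ ‖x - a‖ = r} = 0 := by
  have h : {z : ℂ | ∃ x, x ≠ D.ct 2 ∧ D.M x = z ∧ ‖x - a‖ = r} =
      D.M '' {x | x ≠ D.ct 2 ∧ ‖x - a‖ = r} := by
    ext z
    constructor
    · rintro ⟨x, h1, h2, h3⟩
      exact ⟨x, ⟨h1, h3⟩, h2⟩
    · rintro ⟨x, ⟨h1, h3⟩, h2⟩
      exact ⟨x, h1, h2, h3⟩
  rw [h]
  refine addHaar_image_eq_zero_of_differentiableOn_of_addHaar_eq_zero volume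
    (fun x hx => ((D.M_diff hx.1).restrictScalars ℝ).differentiableWithinAt) ?_
  exact measure_mono_null (fun x hx => hx.2) (null_sphere a r)

/-- The map with core positions `ct k + ζ 6` and `ct k + ζ 6 * ζ 7`. -/
def tw (D : TD) (k : Fin 3) (ζ : Fin 8 → ℂ) : Fin 8 → ℂ :=
  mk8 ζ (D.M (D.ct k + ζ 6)) (D.M (D.ct k + ζ 6 * ζ 7))

theorem tw_diff {k : Fin 3} {ζ : Fin 8 → ℂ} (h6 : D.ct k + ζ 6 ≠ D.ct 2)
    (h7 : D.ct k + ζ 6 * ζ 7 ≠ D.ct 2) : DifferentiableAt ℂ (tw D k) ζ := by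
  rw [differentiableAt_pi]
  intro j
  rcases fin8_cases j with hj | rfl | rfl
  · have e : (fun ζ => tw D k ζ j) = fun ζ => ζ j := funext fun ζ => mk8_lt _ _ _ hj
    rw [e]
    fun_prop
  · have e : (fun ζ => tw D k ζ 6) = fun ζ : Fin 8 → ℂ => D.M (D.ct k + ζ 6) :=
      funext fun ζ => mk8_six _ _ _
    rw [e]
    exact (D.M_diff h6).comp (f := fun ζ : Fin 8 → ℂ => D.ct k + ζ 6) ζ (by fun_prop)
  · have e : (fun ζ => tw D k ζ 7) = fun ζ : Fin 8 → ℂ => D.M (D.ct k + ζ 6 * ζ 7) :=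
      funext fun ζ => mk8_seven _ _ _
    rw [e]
    exact (D.M_diff h7).comp (f := fun ζ : Fin 8 → ℂ => D.ct k + ζ 6 * ζ 7) ζ (by fun_prop)

theorem null_tw (k : Fin 3) : volume {b : Fin 8 → ℂ | ∃ x y, x ≠ D.ct 2 ∧ y ≠ D.ct 2 ∧
    D.M x = b 6 ∧ D.M y = b 7 ∧ ‖x - D.ct k‖ = ‖y - D.ct k‖ ∧ x ≠ D.ct k} = 0 := by
  have h1 : volume {ζ : Fin 8 → ℂ | (D.ct k + ζ 6 ≠ D.ct 2 ∧ D.ct k + ζ 6 * ζ 7 ≠ D.ct 2) ∧
      ‖ζ 7‖ = 1} = 0 := by
    refine measure_mono_null (fun x hx => ?_) (null_coord (null_sphere 0 1) 7)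
    simpa using hx.2
  have h2 := null_image (f := tw D k) (fun ζ hζ => tw_diff hζ.1.1 hζ.1.2) h1
  refine measure_mono_null ?_ h2
  rintro b ⟨x, y, hx, hy, hxM, hyM, hn, hxk⟩
  have hx0 : x - D.ct k ≠ 0 := sub_ne_zero.2 hxk
  have e6 : D.ct k + (x - D.ct k) = x := by ring
  have e7 : D.ct k + (x - D.ct k) * ((y - D.ct k) / (x - D.ct k)) = y := by
    rw [mul_div_cancel₀ _ hx0]; ring
  refine ⟨mk8 b (x - D.ct k) ((y - D.ct k) / (x - D.ct k)), ⟨⟨?_, ?_⟩, ?_⟩, ?_⟩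
  · rw [mk8_six, e6]; exact hx
  · rw [mk8_six, mk8_seven, e7]; exact hy
  · rw [mk8_seven, norm_div, hn, div_self]
    rw [← hn]
    exact norm_ne_zero_iff.2 hx0
  · funext j
    rcases fin8_cases j with hj | rfl | rfl
    · rw [tw, mk8_lt _ _ _ hj, mk8_lt _ _ _ hj]
    · rw [tw, mk8_six, mk8_six, e6, hxM]
    · rw [tw, mk8_seven, mk8_six, mk8_seven, e7, hyM]

/-- The exceptional set. -/
def Ex (D : TD) : Set (Fin 8 → ℂ) :=
  (⋃ j : Fin 8, {b | ‖b j‖ = 1}) ∪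
  ({b | b 6 = (D.ct 1 - D.ct 2) / (D.ct 1 - D.ct 0)} ∪
    {b | b 7 = (D.ct 1 - D.ct 2) / (D.ct 1 - D.ct 0)}) ∪
  (⋃ k : Fin 3, {b | b 6 ∈ {z : ℂ | ∃ x, x ≠ D.ct 2 ∧ D.M x = z ∧ ‖x - D.ct k‖ = D.ρ}}) ∪
  (⋃ k : Fin 3, {b | b 7 ∈ {z : ℂ | ∃ x, x ≠ D.ct 2 ∧ D.M x = z ∧ ‖x - D.ct k‖ = D.ρ}}) ∪
  (⋃ k : Fin 3, {b : Fin 8 → ℂ | ∃ x y, x ≠ D.ct 2 ∧ y ≠ D.ct 2 ∧
    D.M x = b 6 ∧ D.M y = b 7 ∧ ‖x - D.ct k‖ = ‖y - D.ct k‖ ∧ x ≠ D.ct k}) ∪
  ({b | b 6 ∈ {z : ℂ | ∃ x, x ≠ D.ct 2 ∧ D.M x = z ∧ ‖x - 0‖ = D.R}} ∪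
    {b | b 7 ∈ {z : ℂ | ∃ x, x ≠ D.ct 2 ∧ D.M x = z ∧ ‖x - 0‖ = D.R}})

theorem null_Ex : volume (Ex D) = 0 := by
  unfold Ex
  refine measure_union_null (measure_union_null (measure_union_null (measure_union_null
    (measure_union_null ?_ ?_) ?_) ?_) ?_) ?_
  · refine measure_iUnion_null fun j => ?_
    have := null_coord (null_sphere 0 1) j
    simpa using this
  · refine measure_union_null ?_ ?_
    · exact null_coord (S := {(D.ct 1 - D.ct 2) / (D.ct 1 - D.ct 0)}) (measure_singleton _) 6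
    · exact null_coord (S := {(D.ct 1 - D.ct 2) / (D.ct 1 - D.ct 0)}) (measure_singleton _) 7
  · exact measure_iUnion_null fun k => null_coord (null_M (D.ct k) D.ρ) 6
  · exact measure_iUnion_null fun k => null_coord (null_M (D.ct k) D.ρ) 7
  · exact measure_iUnion_null fun k => null_tw k
  · exact measure_union_null (null_coord (null_M 0 D.R) 6) (null_coord (null_M 0 D.R) 7)

theorem cover (s : Bool) {b : Fin 8 → ℂ} (hb : b ∈ bs s) (hE : b ∉ Ex D) :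
    ∃ c : Cell, c.Ok s ∧ ∃ ζ ∈ D.Om s c, D.kap s c ζ = b := by
  simp only [Ex, mem_union, mem_iUnion, not_or, not_exists] at hE
  obtain ⟨⟨⟨⟨⟨h1, h2, h3⟩, h4⟩, h5⟩, h6⟩, h7, h8⟩ := hE
  obtain ⟨x, hx, hxM⟩ := D.M_surj (z := b 6) h2
  obtain ⟨y, hy, hyM⟩ := D.M_surj (z := b 7) h3
  have hxk := ne_ct hx hxM (hb.1 6).1 (hb.1 6).2
  refine kap_cover hb (fun j _ => h1 j) hx hy hxM hyM (fun k hk => h4 k ⟨x, hx, hxM, hk⟩)
    (fun k hk => h5 k ⟨y, hy, hyM, hk⟩) (fun h => h7 ⟨x, hx, hxM, by rw [sub_zero]; exact h⟩)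
    (fun h => h8 ⟨y, hy, hyM, by rw [sub_zero]; exact h⟩)
    fun _ k hk => h6 k ⟨x, y, hx, hy, hxM, hyM, hk, hxk k⟩

/-- **Integration over the cells.** -/
theorem cells_int' (s : Bool) (f : (Fin 8 → ℂ) → ℝ) (T : Finset Cell)
    (hmem : ∀ c, c ∈ T ↔ c.Ok s)
    (hf : ∀ c : Cell, c.Ok s →
      IntegrableOn (fun ζ => |(fderiv ℝ (D.kap s c) ζ).det| • f (D.kap s c ζ)) (D.Om s c)) :
    IntegrableOn f (bs s) ∧ ∫ b in bs s, f b =
      ∑ c ∈ T, ∫ ζ in D.Om s c, |(fderiv ℝ (D.kap s c) ζ).det| • f (D.kap s c ζ) := by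
  have hder : ∀ c : Cell, ∀ ζ ∈ D.Om s c,
      HasFDerivWithinAt (D.kap s c) (fderiv ℝ (D.kap s c) ζ) (D.Om s c) ζ := fun c ζ hζ =>
    ((kap_diff hζ).restrictScalars ℝ).hasFDerivAt.hasFDerivWithinAt
  have hms : ∀ c : Cell, MeasurableSet (D.kap s c '' D.Om s c) := fun c =>
    measurable_image_of_fderivWithin isOpen_Om.measurableSet (hder c) kap_inj
  have hint : ∀ c : Cell, c.Ok s → IntegrableOn f (D.kap s c '' D.Om s c) := fun c hc =>
    (integrableOn_image_iff_integrableOn_abs_det_fderiv_smul volume isOpen_Om.measurableSet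
      (hder c) kap_inj f).2 (hf c hc)
  have hval : ∀ c : Cell, ∫ b in D.kap s c '' D.Om s c, f b =
      ∫ ζ in D.Om s c, |(fderiv ℝ (D.kap s c) ζ).det| • f (D.kap s c ζ) := fun c =>
    integral_image_eq_integral_abs_det_fderiv_smul volume isOpen_Om.measurableSet
      (hder c) kap_inj f
  have hae : (⋃ c ∈ T, D.kap s c '' D.Om s c : Set (Fin 8 → ℂ)) =ᵐ[volume] bs s := by
    refine Filter.EventuallyLE.antisymm ?_ ?_
    · refine Filter.Eventually.of_forall ?_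
      intro b hb
      change b ∈ (⋃ c ∈ T, D.kap s c '' D.Om s c : Set (Fin 8 → ℂ)) at hb
      simp only [mem_iUnion] at hb
      obtain ⟨c, -, ζ, hζ, rfl⟩ := hb
      exact kap_mem hζ
    · have h0 : ∀ᵐ b : Fin 8 → ℂ, b ∉ Ex D := measure_eq_zero_iff_ae_notMem.1 null_Ex
      filter_upwards [h0] with b hb hbs
      obtain ⟨c, hc, ζ, hζ, he⟩ := cover s hbs hb
      change b ∈ (⋃ c ∈ T, D.kap s c '' D.Om s c : Set (Fin 8 → ℂ))
      simp only [mem_iUnion]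
      exact ⟨c, (hmem c).2 hc, ζ, hζ, he⟩
  have hdis : (T : Set Cell).Pairwise (Function.onFun Disjoint fun c => D.kap s c '' D.Om s c) := by
    intro c hc c' hc' hne
    rw [Function.onFun, Set.disjoint_left]
    rintro _ ⟨ζ, hζ, rfl⟩ ⟨ζ', hζ', he⟩
    have h1 := (hmem c).1 (Finset.mem_coe.1 hc)
    have h2 := (hmem c').1 (Finset.mem_coe.1 hc')
    exact hne (kap_disj h1 h2 hζ hζ' he.symm)
  have hI : IntegrableOn f (⋃ c ∈ T, D.kap s c '' D.Om s c) := by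
    rw [integrableOn_finset_iUnion]
    intro c hc
    exact hint c ((hmem c).1 hc)
  refine ⟨hI.congr_set_ae hae.symm, ?_⟩
  rw [← setIntegral_congr_set hae, integral_biUnion_finset T (fun c _ => hms c) hdis
    (fun c hc => hint c ((hmem c).1 hc))]
  exact Finset.sum_congr rfl fun c _ => hval c

theorem cells_int (s : Bool) (f : (Fin 8 → ℂ) → ℝ)
    (hf : ∀ c : Cell, c.Ok s →
      IntegrableOn (fun ζ => |(fderiv ℝ (D.kap s c) ζ).det| • f (D.kap s c ζ)) (D.Om s c)) :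
    IntegrableOn f (bs s) ∧ ∫ b in bs s, f b =
      ∑ c : Cell with c.Ok s,
        ∫ ζ in D.Om s c, |(fderiv ℝ (D.kap s c) ζ).det| • f (D.kap s c ζ) :=
  cells_int' s f _ (fun c => by simp) hf

end TD

end Vale.Agent.P273.H728

end
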