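import Vale.Agent.P273.H728.Defs

/-!
# P273, LIM-V: the coordinates are coordinates, the base
-/

noncomputable section

namespace Vale.Agent.P273.H728

open Set Sum H183 H837 H93

theorem he_ex : ∀ p q : Fin 7, p ≤ q → ∀ (v : Option (Fin 7)) (i : Fin 3),
    (i = 1 ∧ v ≠ none ∧ v ≠ some 6) ∨
      ∃ y, (he p q y = v ∧ cE p q y = i) ∧ ∀ y', he p q y' = v ∧ cE p q y' = i → y' = y := by
  decide +kernel

theorem he_one : ∀ p q : Fin 7, p ≤ q → ∀ y, he p q y ≠ none → he p q y ≠ some 6 →
    cE p q y ≠ 1 := by
  decide +kernel

theorem cL_one (b : Bool) (t : Fin 7) : cL b t = inl 1 ↔ b = true ∧ t ≠ 6 := by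
  unfold cL
  split_ifs with h1 h2 <;> simp_all

theorem cL_inl (b : Bool) (t : Fin 7) (i : Fin 3) : cL b t = inl i → i = 1 ∧ b = true ∧ t ≠ 6 := by
  unfold cL
  split_ifs with h1 h2
  · simp
  · intro h
    exact ⟨(inl.inj h).symm, h2, h1⟩
  · simp

theorem lg_ne (e : Bool → Bool) (b : Bool) (t : Fin 7) (h : t ≠ 6) : lg e b t = some t := by
  simp [lg, h]

theorem lg_six (e : Bool → Bool) (b : Bool) : lg e b 6 = if e b then some 6 else none := by
  unfold lg
  cases e b <;> simp

/-- The coordinates on the moduli space of `thE e p q σ`. -/
def coordE (e : Bool → Bool) (p q : Fin 7) (h : p ≤ q) (σ : Bool → Equiv.Perm (Fin 7)) :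
    Coord (thE e p q σ) 8 where
  c := cc p q σ
  const v i := by
    rcases he_ex p q h v i with ⟨rfl, h0, h6⟩ | ⟨y, ⟨hy1, hy2⟩, hy⟩
    · obtain ⟨t, rfl⟩ := Option.ne_none_iff_exists'.1 h0
      have ht : t ≠ 6 := fun h => h6 (congrArg some h)
      refine ⟨inr ((σ true).symm t, true), ⟨?_, ?_⟩, ?_⟩
      · change lg e true (σ true ((σ true).symm t)) = some t
        rw [Equiv.apply_symm_apply, lg_ne _ _ _ ht]
      · change cL true (σ true ((σ true).symm t)) = inl 1
        rw [Equiv.apply_symm_apply, cL_one]
        exact ⟨rfl, ht⟩
      · rintro (y | ⟨i, b⟩) ⟨h1, h2⟩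
        · exact absurd (inl.inj h2) (he_one p q h y (by rw [show he p q y = some t from h1]; simp)
            (by rw [show he p q y = some t from h1]; simpa using ht))
        · obtain ⟨hb, h3⟩ := (cL_one b (σ b i)).1 h2
          subst hb
          have h4 : lg e true (σ true i) = some t := h1
          rw [lg_ne _ _ _ h3] at h4
          rw [← Option.some.inj h4, Equiv.symm_apply_apply]
    · refine ⟨inl y, ⟨hy1, congrArg inl hy2⟩, ?_⟩
      rintro (y' | ⟨j, b⟩) ⟨h1, h2⟩
      · exact congrArg inl (hy y' ⟨h1, inl.inj h2⟩)
      · exfalso
        obtain ⟨hi, hb, h3⟩ := cL_inl b (σ b j) i h2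
        subst hi hb
        have h4 : lg e true (σ true j) = v := h1
        rw [lg_ne _ _ _ h3] at h4
        refine he_one p q h y ?_ ?_ hy2
        · rw [hy1, ← h4]; simp
        · rw [hy1, ← h4]; simpa using h3
  coord j := by
    by_cases h6 : j = 6
    · refine ⟨inr ((σ true).symm 6, true), ?_, ?_⟩
      · change cL true (σ true ((σ true).symm 6)) = inr j
        simp [cL, h6]
      · rintro (y | ⟨i, b⟩) h1
        · simp [cc] at h1
        · have h2 : cL b (σ b i) = inr j := h1
          unfold cL at h2
          split_ifs at h2 with h3 h4 h5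
          · subst h4
            rw [← h3, Equiv.symm_apply_apply]
          · rw [h6] at h2
            exact absurd (inr.inj h2) (by decide)
          · rw [h6] at h2
            have := congrArg Fin.val (inr.inj h2)
            simp only [Fin.val_castLE] at this
            exact absurd (Fin.ext this : σ b i = 6) h3
    by_cases h7 : j = 7
    · refine ⟨inr ((σ false).symm 6, false), ?_, ?_⟩
      · change cL false (σ false ((σ false).symm 6)) = inr j
        simp [cL, h7]
      · rintro (y | ⟨i, b⟩) h1
        · simp [cc] at h1
        · have h2 : cL b (σ b i) = inr j := h1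
          unfold cL at h2
          split_ifs at h2 with h3 h4 h5
          · rw [h7] at h2
            exact absurd (inr.inj h2) (by decide)
          · have : b = false := by simpa using h4
            subst this
            rw [← h3, Equiv.symm_apply_apply]
          · rw [h7] at h2
            have := congrArg Fin.val (inr.inj h2)
            simp only [Fin.val_castLE] at this
            have h8 := (σ b i).2
            rw [this] at h8
            exact absurd h8 (by decide)
    · have hj : j.1 < 6 := by
        have := j.2
        have h1 : j.1 ≠ 6 := fun h => h6 (Fin.ext h)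
        have h2 : j.1 ≠ 7 := fun h => h7 (Fin.ext h)
        omega
      let t : Fin 7 := ⟨j.1, by omega⟩
      have ht : t ≠ 6 := by
        intro h
        have := congrArg Fin.val h
        simp only [t] at this
        exact absurd this (by simpa using hj.ne)
      refine ⟨inr ((σ false).symm t, false), ?_, ?_⟩
      · change cL false (σ false ((σ false).symm t)) = inr j
        rw [Equiv.apply_symm_apply]
        simp only [cL, if_neg ht]
        simp [t, Fin.castLE]
      · rintro (y | ⟨i, b⟩) h1
        · simp [cc] at h1
        · have h2 : cL b (σ b i) = inr j := h1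
          unfold cL at h2
          split_ifs at h2 with h3 h4 h5
          · exact absurd (inr.inj h2).symm h6
          · exact absurd (inr.inj h2).symm h7
          · have h5 : b = false := by simpa using h5
            subst h5
            have h6 : σ false i = t := by
              have := congrArg Fin.val (inr.inj h2)
              simp only [Fin.val_castLE] at this
              exact Fin.ext this
            rw [← h6, Equiv.symm_apply_apply]

/-- The base. -/
def baseE (e : Bool → Bool) : Set (Fin 8 → ℂ) :=
  {b | (∀ j, b j ≠ 0 ∧ b j ≠ 1) ∧ (e true = e false → b 6 ≠ b 7)}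

end Vale.Agent.P273.H728

end
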