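import Vale.Agent.P273.H93.Comb
import Vale.Agent.P273.H837.Strata

/-!
# P273, LIM-V: coordinates on the strata of the theta graphs and the cells

The moduli space of the graph `thE e p q σ` has the coordinates `b : Fin 8 → ℂ`: at the inner vertex
`some t` (`t < 6`) the half-edge towards `none` is at `∞`, the one towards `some 6` at `0`, the leg
of type `true` at `1` and the leg of type `false` at `b t`; at the cores `none` and `some 6` the
half-edges of the three chains are at `0, 1, ∞` and the legs with `σ c i = 6` at `b 6` (`c = true`)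
and at `b 7` (`c = false`).
-/

noncomputable section

namespace Vale.Agent.P273.H728

open Set Sum H183 H837 H93

/-- The last edge of the chain `r`. -/
def lastE (p q : ℕ) (r : Fin 3) : Fin 3 ⊕ Fin 6 :=
  ![if p = 0 then inl 0 else inr (Fin.ofNat 6 (p - 1)),
    if p = q then inl 1 else inr (Fin.ofNat 6 (q - 1)),
    if q = 6 then inl 2 else inr 5] r

/-- The positions of the half-edges. -/
def cE (p q : ℕ) (y : (Fin 3 ⊕ Fin 6) × Bool) : Fin 3 :=
  cond y.2 (y.1.elim id fun _ => 0)
    (if y.1 = lastE p q 0 then 0 else if y.1 = lastE p q 1 then 1 else 2)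

/-- The position of the leg of type `b` at the place `t`. -/
def cL (b : Bool) (t : Fin 7) : Fin 3 ⊕ Fin 8 :=
  if t = 6 then inr (if b then 6 else 7) else if b then inl 1 else inr (Fin.castLE (by omega) t)

/-- The positions. -/
def cc (p q : ℕ) (σ : Bool → Equiv.Perm (Fin 7)) :
    ((Fin 3 ⊕ Fin 6) × Bool) ⊕ (Fin 7 × Bool) → Fin 3 ⊕ Fin 8 :=
  Sum.elim (fun y => inl (cE p q y)) fun x => cL x.2 (σ x.2 x.1)

end Vale.Agent.P273.H728

end
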