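import Vale.Agent.P273.H728.Cells3

/-!
# P273, LIM-V: differential forms of top degree and changes of coordinates
-/

noncomputable section

namespace Vale.Agent.P273.H728

open MeasureTheory Set

variable {m : ℕ}

/-- The standard frame of `ℂ^m`: `e_0, i e_0, e_1, i e_1, …`. -/
def fr (a : Fin (m * 2)) : Fin m → ℂ := Pi.single a.divNat (if a.modNat = 0 then 1 else Complex.I)

/-- The standard frame as a basis. -/
def frB (m : ℕ) : Module.Basis (Fin (m * 2)) ℝ (Fin m → ℂ) :=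
  ((Pi.basis fun _ : Fin m => Complex.basisOneI).reindex (Equiv.sigmaEquivProd _ _)).reindex
    finProdFinEquiv

theorem frB_apply (a : Fin (m * 2)) : frB m a = fr a := by
  unfold frB fr
  rw [Module.Basis.reindex_apply, Module.Basis.reindex_apply]
  have h : (Equiv.sigmaEquivProd (Fin m) (Fin 2)).symm (finProdFinEquiv.symm a) =
      ⟨a.divNat, a.modNat⟩ := rfl
  rw [h, Pi.basis_apply]
  congr 1
  rcases Fin.exists_fin_two.1 ⟨a.modNat, rfl⟩ with h1 | h1
  · rw [h1]; simp
  · rw [h1]; simp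

theorem coe_frB : (frB m : Fin (m * 2) → Fin m → ℂ) = fr := funext frB_apply

/-- **A form of top degree on the image of a frame.** -/
theorem form_det (F : (Fin m → ℂ) [⋀^Fin (m * 2)]→L[ℝ] ℝ) (A : (Fin m → ℂ) →L[ℝ] (Fin m → ℂ)) :
    F (fun a => A (fr a)) = A.det * F fr := by
  have h1 := F.toAlternatingMap.eq_smul_basis_det (frB m)
  have h2 : F (fun a => A (fr a)) = F.toAlternatingMap (fun a => A (fr a)) := rfl
  have h3 : (fun a => A (fr a)) = ⇑(A : (Fin m → ℂ) →ₗ[ℝ] (Fin m → ℂ)) ∘ ⇑(frB m) := by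
    funext a
    simp [frB_apply]
  rw [h2, h1, h3, AlternatingMap.smul_apply, Module.Basis.det_comp, Module.Basis.det_self, mul_one,
    coe_frB, smul_eq_mul, mul_comm]
  rfl

theorem det_nonneg_of_complex (A : (Fin m → ℂ) →L[ℂ] (Fin m → ℂ)) :
    0 ≤ (A.restrictScalars ℝ).det := by
  have h : (A.restrictScalars ℝ).det = LinearMap.det
      ((A : (Fin m → ℂ) →ₗ[ℂ] (Fin m → ℂ)).restrictScalars ℝ) := rfl
  rw [h, LinearMap.det_restrictScalars, Algebra.norm_complex_apply]
  exact Complex.normSq_nonneg _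

theorem det_fderiv_nonneg {f : (Fin m → ℂ) → Fin m → ℂ} {x : Fin m → ℂ}
    (h : DifferentiableAt ℂ f x) : 0 ≤ (fderiv ℝ f x).det := by
  rw [(h.hasFDerivAt.restrictScalars ℝ).fderiv]
  exact det_nonneg_of_complex _

theorem abs_det_smul {f : (Fin m → ℂ) → Fin m → ℂ} {x : Fin m → ℂ}
    (h : DifferentiableAt ℂ f x) (F : (Fin m → ℂ) [⋀^Fin (m * 2)]→L[ℝ] ℝ) :
    |(fderiv ℝ f x).det| • F fr = F (fun a => fderiv ℝ f x (fr a)) := by
  rw [abs_of_nonneg (det_fderiv_nonneg h), form_det, smul_eq_mul]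

end Vale.Agent.P273.H728

end
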