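import Vale.Agent.P273.H728.Iota
import Vale.Agent.P273.H728.BaseE

/-!
# P273, LIM-V: the graph of the region of a cell is the theta graph
-/

noncomputable section

namespace Vale.Agent.P273.H728

open Set Sum H183 H837 H93 H95 H503 H732

/-- The labels of the vertices of the theta graph. -/
def nmE (p q : ℕ) (v : Option (Fin 7)) : Bool ⊕ (Fin 3 × ℕ) :=
  v.elim (inl false) fun t => if t = 6 then inl true else inr (ch p q t, t - off p q (ch p q t) + 1)

/-- The neck and the number of an edge. -/
def geE (p q : ℕ) (y : Fin 3 ⊕ Fin 6) : Fin 3 × ℕ :=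
  y.elim (fun r => (r, 0)) fun t => (ch p q t, t - off p q (ch p q t) + 1)

theorem nmE_inj : ∀ p q : Fin 7, p ≤ q → ∀ v v', nmE p q v = nmE p q v' → v = v' := by
  decide +kernel

theorem geE_inj : ∀ p q : Fin 7, p ≤ q → ∀ y y', geE p q y = geE p q y' → y = y' := by
  decide +kernel

theorem geE_ran0 : ∀ p q : Fin 7, p ≤ q → ∀ k, ∀ i : Fin 8,
    (∃ y, geE p q y = (k, i.1)) ↔ i.1 < len p q k + 1 := by
  decide +kernel

theorem geE_lt : ∀ p q : Fin 7, p ≤ q → ∀ y, (geE p q y).2 < 8 := by
  decide +kernel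

theorem len_lt : ∀ p q : Fin 7, p ≤ q → ∀ k, len p q k + 1 < 8 := by
  decide +kernel

theorem edgeE : ∀ p q : Fin 7, p ≤ q → ∀ y s, nmE p q (he p q (y, s)) =
    (if (if s then (geE p q y).2 else (geE p q y).2 + 1) = 0 then inl false else
      if (if s then (geE p q y).2 else (geE p q y).2 + 1) = len p q (geE p q y).1 + 1 then inl true
      else inr ((geE p q y).1, if s then (geE p q y).2 else (geE p q y).2 + 1)) := by
  decide +kernel

/-- **The graph of the region of a cell.** -/
theorem labE (p q : Fin 7) (hp : p.1 ≤ q.1) (hq : q.1 ≤ 6) (σ : Bool → Equiv.Perm (Fin 7))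
    (e : Bool → Bool) (c : Cell) :
    Lab (Tc hp hq σ e c) (thE e p q σ) (nmE p q) (geE p q) where
  nm_inj v v' h := nmE_inj p q hp v v' h
  ge_inj y y' h := geE_inj p q hp y y' h
  ge_ran k i := by
    rw [Tc, enc_B_card hp hq]
    by_cases hi : i < 8
    · exact geE_ran0 p q hp k ⟨i, hi⟩
    · constructor
      · rintro ⟨y, hy⟩
        have := geE_lt p q hp y
        rw [hy] at this
        exact absurd this hi
      · intro h
        have := len_lt p q hp k
        omega
  edge y s := by
    rw [lb, Tc, enc_B_card hp hq]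
    exact edgeE p q hp y s
  leg x := by
    change nmE p q (lg e x.2 (σ x.2 x.1)) = _
    by_cases hx : (σ x.2 x.1).1 < 6
    · have h6 : σ x.2 x.1 ≠ 6 := fun h => by rw [h] at hx; exact absurd hx (by decide)
      rw [Tc, enc_comp_lt hp hq σ hx, lg_ne _ _ _ h6]
      change (if σ x.2 x.1 = 6 then _ else _) = _
      rw [if_neg h6]
    · have h6 : σ x.2 x.1 = 6 := Fin.ext (by change (σ x.2 x.1).1 = 6; omega)
      rw [Tc, enc_comp_six hp hq σ hx, h6, lg_six]
      cases e x.2
      · rfl
      · rfl

end Vale.Agent.P273.H728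

end
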