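import Vale.Agent.P273.H793.LfC
import Vale.Agent.P273.H793.FibQ
import Vale.Agent.P273.H810.Dict
import Vale.Agent.P273.H182.DomF

/-!
# P273, LimFib: the last step
-/

noncomputable section

namespace Vale.Agent.P273.H728.Lf

open Set Filter MeasureTheory H95 H732 H562 H573 H793
open Vale.P273.H887 (Qf ρ cf shSet)
open Vale.Agent.P273.H681 (C6 XX)
open scoped Topology ContDiff

attribute [-instance] Nat.decidableForallFin

section

variable (R : H852.Reg L (Fin 3)) (far : R.Kc → Bool)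

theorem Sx_fr : Sx (to95 R) (fun c => far ((kcE R).symm c)) = Sfar R far := by
  funext j
  unfold Sx Sfar
  by_cases h : ((to95 R).pl j).isRight = true
  · rw [dif_pos h, dif_pos]
    rfl
  · rw [dif_neg h, dif_neg]
    intro h'
    apply h
    exact (kcE R ⟨j, h'⟩).2

variable {y α : Fin 3 → ℝ}

theorem core_ne (hy : ∀ k, 64 ≤ y k) {x : Fb (to95 R) (m95 R)}
    (hx : x ∈ domF (to95 R) (m95 R) (fun c => far ((kcE R).symm c)) y α) (c : R.Kc) (k : Fin 3) :
    H852.finv far (H810.cd R x).2 c ≠ ctr k := by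
  have h := hx.2.2 (kcE R c)
  beta_reduce at h
  rw [Equiv.symm_apply_apply] at h
  have h2 : (H810.cd R x).2 c = x.2 (kcE R c) := rfl
  unfold H852.finv
  rw [h2]
  generalize x.2 (kcE R c) = z at h
  rcases hf : far c with _ | _
  · rw [hf] at h
    simp only [H573.zone, Bool.false_eq_true, if_false] at h
    change z ≠ ctr k
    intro h3
    have h4 := H182.core_zone hy h.2 k
    rw [h3, sub_self, norm_zero] at h4
    norm_num at h4
  · rw [hf] at h
    simp only [H573.zone, if_true] at h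
    change z⁻¹ ≠ ctr k
    intro h3
    have h4 := H811.norm_ctr_le k
    rw [← h3, norm_inv] at h4
    have h5 : 0 < ‖z‖ := norm_pos_iff.2 h.1
    have h6 := h.2
    rw [inv_le_comm₀ h5 (by norm_num)] at h4
    norm_num at h4 h6
    linarith

theorem fpos_nd' (hy : ∀ k, 64 ≤ y k) {x : Fb (to95 R) (m95 R)}
    (hx : x ∈ domF (to95 R) (m95 R) (fun c => far ((kcE R).symm c)) y α) :
    R.fpos (H811.nd' y α) far (H810.cd R x) = R.fpos (Dth (y, α)) far (H810.cd R x) := by
  funext j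
  unfold H852.Reg.fpos H852.Reg.pos
  split
  · rfl
  · rename_i b hb
    have h1 := core_ne R far hy hx ⟨j, fun k hk => by simp [hk] at hb⟩
    have h2 := H811.nd'_s_eq y α h1
    have h3 : (Dth (y, α)).s = (H732.nd y α).s := rfl
    rw [h3]
    cases b
    · simp only [Bool.false_eq_true, if_false]
      rw [h2]
    · simp only [if_true]
      rw [h2]

theorem fjac_nd' (q : Cd R) :
    R.fjac (H811.nd' y α) far q = R.fjac (Dth (y, α)) far q := rfl

/-- the algebra of the joint, for abstract forms -/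
theorem assemble (om : Alt (16 + 14) (Co (to95 R) (m95 R)))
    (Q : (L → Bool) → E → (L → ℂ) → F30) (z : Bs3 × Cd R) (q : Cd R)
    (A' : Fin 2 → Bs3 × Cd R) (A : Fin 2 → Co (to95 R) (m95 R)) (hz : z = ((y, α), q))
    (hA : ∀ k, coL R (A' k) = A k) (hB : ∀ k, (A' k).1 = ((A k).2.2.1, (A k).2.2.2.1))
    (hpos : R.fpos (H811.nd' y α) far q = R.fpos (Dth (y, α)) far q)
    (h : om (fr30 (to95 R) (m95 R) (coL R (A' 0)) (coL R (A' 1))) =
      R.fjac (Dth z.1) far z.2 * fv Q (rtp z.1) (R.fpos (Dth z.1) far z.2)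
        (fun k => fderiv ℝ rtp z.1 (A' k).1)) :
    R.fjac (H811.nd' y α) far q * fv Q (rootsL y α) (R.fpos (H811.nd' y α) far q)
        (fun k => fderiv ℝ rtp (y, α) ((A k).2.2.1, (A k).2.2.2.1)) =
      om (fr30 (to95 R) (m95 R) (A 0) (A 1)) := by
  subst hz
  rw [hA, hA] at h
  simp only [hB] at h
  rw [hpos, fjac_nd', h]
  rfl

/-- **the joint** -/
theorem joint (X : Ext) (Θ : Gauge) {T : MT} (hT : SymT T) (hy : ∀ k, 64 ≤ y k)
    (hα : ∀ k, -7 ≤ α k ∧ α k ≤ 1) {x : Fb (to95 R) (m95 R)}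
    (hx : x ∈ domF (to95 R) (m95 R) (fun c => far ((kcE R).symm c)) y α) (A : Fin 2 → Co (to95 R) (m95 R)) :
    R.fjac (H811.nd' y α) far (H810.cd R x) *
      fv (H793.Qg X Θ T) (rootsL y α) (R.fpos (H811.nd' y α) far (H810.cd R x))
        (fun k => fderiv ℝ rtp (y, α) ((A k).2.2.1, (A k).2.2.2.1)) =
      OmR (to95 R) (m95 R) X Θ T (Sx (to95 R) (fun c => far ((kcE R).symm c))) (H573.mk (to95 R) (m95 R) y α x)
        (fr30 (to95 R) (m95 R) (A 0) (A 1)) := by
  obtain ⟨hI, hs⟩ := H182.inr_mk (to95 R) (m95 R) hx hy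
  rw [Sx_fr] at hs ⊢
  obtain ⟨z, hz'⟩ : ∃ z : Bs3 × Cd R, z = ((y, α), H810.cd R x) := ⟨_, rfl⟩
  have hp : H573.mk (to95 R) (m95 R) y α x = coL R z := by
    rw [hz', coL_apply]
    exact (H810.coE_cd R y α x).symm
  rw [hp] at hI ⊢
  have hy2 : ∀ k, 64 ≤ (coL R z).2.2.1 k := by
    rw [← hp]
    exact hy
  have hs2 : (coL R z).2.2.2.2 ∈ H975.zone (to95 R) (Sfar R far) (1 / 64) 11 := by
    rw [← hp]
    exact hs
  have hU : emb (to95 R) (m95 R) (coL R z) ∈ H975.U0 (to95 R) (Sfar R far) :=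
    H182.emb_mem_D1 hI hy2 hs2
  have hv : shE (to95 R) (m95 R) (Sfar R far) (coL R z) ∈
      shSet (cf (Sfar R far) (posE (to95 R) (m95 R) (coL R z))) := by
    intro j
    have h2 := H375.sht_sq (to95 R) (farOk_Sfar R far) j hU
    rw [← H182.rts_rootsL] at h2
    exact h2
  have hz : ∀ c, far c = true → z.2.2 c ≠ 0 := by
    intro c hc
    have h := hx.2.2 (kcE R c)
    beta_reduce at h
    rw [Equiv.symm_apply_apply, hc] at h
    simp only [H573.zone, if_true] at h
    rw [hz']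
    exact h.1
  have hX0 : rootsL y α ∈ XX := H182.rootsL_mem (fun k => by linarith [hy k]) hα
  have hX : (posE (to95 R) (m95 R) (coL R z)).1 ∈ XX := by
    rw [hz']
    exact hX0
  obtain ⟨A', hA, hB⟩ : ∃ A' : Fin 2 → Bs3 × Cd R, (∀ k, coL R (A' k) = A k) ∧
      ∀ k, (A' k).1 = ((A k).2.2.1, (A k).2.2.2.1) :=
    ⟨fun k => (((A k).2.2.1, (A k).2.2.2.1), coR R (A k)), fun k => coL_coR R (A k), fun _ => rfl⟩
  exact assemble R far (OmR (to95 R) (m95 R) X Θ T (Sfar R far) (coL R z)) (H793.Qg X Θ T) z _ A' A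
    hz' hA hB (fpos_nd' R far hy hx) (point_eq R X Θ hT far hX hz hU hv A')

end

end Vale.Agent.P273.H728.Lf

end
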