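import Vale.Agent.P273.H728.LfD
import Vale.Agent.P273.H67.IRInt
import Vale.Agent.P273.H970.Meas3

/-!
# P273, LimFib: the fibre integral is the sum over the regions
-/

noncomputable section

namespace Vale.Agent.P273.H728.Lf

open Set Filter MeasureTheory H95 H732 H562 H573 H793
open Vale.P273.H887 (Qf ρ cf shSet)
open Vale.Agent.P273.H681 (C6 XX)
open scoped Topology ContDiff

attribute [-instance] Nat.decidableForallFin

theorem int_apply {P : Type*} [MeasurableSpace P] {μ : Measure P}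
    {f : P → C6 [⋀^Fin 2]→L[ℝ] ℝ} (hf : Integrable f μ) (w : Fin 2 → C6) :
    (∫ p, f p ∂μ) w = ∫ p, f p w ∂μ :=
  ((ContinuousAlternatingMap.apply ℝ C6 ℝ w).integral_comp_comm hf).symm

theorem integrable_apply {P : Type*} [MeasurableSpace P] {μ : Measure P}
    {f : P → C6 [⋀^Fin 2]→L[ℝ] ℝ} (hf : Integrable f μ) (w : Fin 2 → C6) :
    Integrable (fun p => f p w) μ :=
  (ContinuousAlternatingMap.apply ℝ C6 ℝ w).integrable_comp hf

/-- the curve measure in the branch of 852's necks -/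
theorem muC_nd' (y α : Fin 3 → ℝ) :
    Measure.pi (fun _ : L => H852.sheetMeas (H811.nd' y α).s volume) = muC (rootsL y α) := by
  refine muC_eq (H811.measurable_nd'_s y α) (Eventually.of_forall fun x => ?_)
  rw [H811.nd'_s_sq]
  have h : rts (rootsL y α) = thA (H732.nd y α).ε := by
    rw [H182.rts_rootsL']
    congr 1
    funext k
    exact (H810.nd_eps y α k).symm
  rw [h]

section

variable (R : H852.Reg L (Fin 3)) (far : R.Kc → Bool) {y α : Fin 3 → ℝ}

/-- the joint for two vectors -/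
theorem joint2 (X : Ext) (Θ : Gauge) {T : MT} (hT : SymT T) (hy : ∀ k, 64 ≤ y k)
    (hα : ∀ k, -7 ≤ α k ∧ α k ≤ 1) {x : Fb (to95 R) (m95 R)}
    (hx : x ∈ domF (to95 R) (m95 R) (fun c => far ((kcE R).symm c)) y α)
    (u v : Co (to95 R) (m95 R)) (w : Fin 2 → C6)
    (hw : w = ![fderiv ℝ rtp (y, α) (u.2.2.1, u.2.2.2.1),
      fderiv ℝ rtp (y, α) (v.2.2.1, v.2.2.2.1)]) :
    R.fjac (H811.nd' y α) far (H810.cd R x) *
      fv (H793.Qg X Θ T) (rootsL y α) (R.fpos (H811.nd' y α) far (H810.cd R x)) w =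
      OmR (to95 R) (m95 R) X Θ T (Sx (to95 R) (fun c => far ((kcE R).symm c)))
        (H573.mk (to95 R) (m95 R) y α x) (fr30 (to95 R) (m95 R) u v) := by
  obtain ⟨A, hA0, hA1⟩ : ∃ A : Fin 2 → Co (to95 R) (m95 R), A 0 = u ∧ A 1 = v :=
    ⟨![u, v], rfl, rfl⟩
  have h := joint R far X Θ hT hy hα hx A
  rw [hA0, hA1] at h
  have h1 : w = fun k => fderiv ℝ rtp (y, α) ((A k).2.2.1, (A k).2.2.2.1) := by
    rw [hw]
    funext k
    fin_cases k
    · rw [← hA0]; rfl
    · rw [← hA1]; rfl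
  rw [h1]
  exact h

end

/-- a family of forms on the charts -/
abbrev Fam : Type := ∀ (R : Region) (m : ∀ k, Fin (R.n k + 1)), (R.Cm → Bool) → Co R m →
  Alt (16 + 14) (Co R m)

theorem IR_def {X : Ext} {Θ : Gauge} {T : MT} (om : Fam)
    (hom : ∀ (R : Region) (m : ∀ k, Fin (R.n k + 1)) (far : R.Cm → Bool) (p : Co R m),
      OmR R m X Θ T (Sx R far) p = om R m far p)
    (R : Region) (m : ∀ k, Fin (R.n k + 1))
    (far : R.Cm → Bool) (y α : Fin 3 → ℝ) (a b : Co R m → Co R m) :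
    IR R m X Θ T far y α a b = ∫ x in domF R m far y α, om R m far (H573.mk R m y α x)
      (fr30 R m (a (H573.mk R m y α x)) (b (H573.mk R m y α x))) := by
  unfold IR
  simp only [hom]

/-- the decomposition for abstract forms -/
theorem core {y α : Fin 3 → ℝ} (hy0 : ∀ k, 0 < y k) (Q : (L → Bool) → E → (L → ℂ) → F30)
    (om : Fam) (hint : Integrable (fv Q (rootsL y α)) (muC (rootsL y α))) (w : Fin 2 → C6)
    (va vb : ∀ (R : Region) (m : ∀ k, Fin (R.n k + 1)), Co R m → Co R m)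
    (hj : ∀ (R : H852.Reg L (Fin 3)) (far : R.Kc → Bool),
      ∀ x ∈ domF (to95 R) (m95 R) (fun c => far ((kcE R).symm c)) y α,
      R.fjac (H811.nd' y α) far (H810.cd R x) *
        fv Q (rootsL y α) (R.fpos (H811.nd' y α) far (H810.cd R x)) w =
      om (to95 R) (m95 R) (fun c => far ((kcE R).symm c)) (H573.mk (to95 R) (m95 R) y α x)
        (fr30 (to95 R) (m95 R) (va (to95 R) (m95 R) (H573.mk (to95 R) (m95 R) y α x))
          (vb (to95 R) (m95 R) (H573.mk (to95 R) (m95 R) y α x)))) :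
    (∫ p, fv Q (rootsL y α) p ∂(muC (rootsL y α))) w =
      ∑ R : Region, ∑ m : ∀ k, Fin (R.n k + 1), ∑ far : R.Cm → Bool,
        ∫ x in domF R m far y α, om R m far (H573.mk R m y α x)
          (fr30 R m (va R m (H573.mk R m y α x)) (vb R m (H573.mk R m y α x))) := by
  rw [int_apply hint, ← muC_nd' y α]
  rw [← muC_nd' y α] at hint
  exact H810.region_sum_of hy0 (integrable_apply hint w)
    (fun R m far x => om R m far (H573.mk R m y α x)
      (fr30 R m (va R m (H573.mk R m y α x)) (vb R m (H573.mk R m y α x)))) fun R far =>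
    ae_restrict_of_forall_mem (H67.measurableSet_domF (to95 R) (m95 R) H970.measDom _ y α)
      fun x hx => hj R far x hx

/-- **(S1)** -/
theorem limFib (X : Ext) (Θ : Gauge) : LimFib X Θ := by
  refine ⟨64, fun T hT y α hy hα a b va vb hva hvb => ?_⟩
  have hy0 : ∀ k, 0 < y k := fun k => by linarith [hy k]
  have hb : rootsL y α ∈ XX := H182.rootsL_mem (fun k => (hy0 k).le) hα
  have hint := integrable_fv (goodQg X Θ hT) hb
  rw [phiF_eq_curve X Θ hT hb]
  obtain ⟨w, hw⟩ : ∃ w : Fin 2 → C6, w = ![fderiv ℝ rtp (y, α) a, fderiv ℝ rtp (y, α) b] :=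
    ⟨_, rfl⟩
  rw [← hw]
  obtain ⟨om, hom⟩ : ∃ om : Fam,
      ∀ (R : Region) (m : ∀ k, Fin (R.n k + 1)) (far : R.Cm → Bool) (p : Co R m),
      OmR R m X Θ T (Sx R far) p = om R m far p :=
    ⟨fun R m far p => OmR R m X Θ T (Sx R far) p, fun _ _ _ _ => rfl⟩
  have hj : ∀ (R : H852.Reg L (Fin 3)) (far : R.Kc → Bool),
      ∀ x ∈ domF (to95 R) (m95 R) (fun c => far ((kcE R).symm c)) y α,
      R.fjac (H811.nd' y α) far (H810.cd R x) *
        fv (H793.Qg X Θ T) (rootsL y α) (R.fpos (H811.nd' y α) far (H810.cd R x)) w =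
      om (to95 R) (m95 R) (fun c => far ((kcE R).symm c)) (H573.mk (to95 R) (m95 R) y α x)
        (fr30 (to95 R) (m95 R) (va (to95 R) (m95 R) (H573.mk (to95 R) (m95 R) y α x))
          (vb (to95 R) (m95 R) (H573.mk (to95 R) (m95 R) y α x))) := by
    intro R far x hx
    rw [← hom]
    refine joint2 R far X Θ hT hy hα hx _ _ w ?_
    rw [hw, (hva _ _ _).1, (hva _ _ _).2, (hvb _ _ _).1, (hvb _ _ _).2]
  rw [core hy0 (H793.Qg X Θ T) om hint w va vb hj]
  refine Finset.sum_congr rfl fun R _ => Finset.sum_congr rfl fun m _ =>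
    Finset.sum_congr rfl fun far _ => ?_
  exact (IR_def om hom R m far y α (va R m) (vb R m)).symm

end Vale.Agent.P273.H728.Lf

end
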