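import Vale.Agent.P273.H728.StrSum
import Vale.Agent.P273.H92.Bridge
import Vale.Agent.P273.H573.Close

/-!
# P273, LIM, step 8: the pieces of a stratum sum to the stratum
-/

noncomputable section

namespace Vale.Agent.P273.H728

open H573

/-- **(S8)** the field `piece` of `H573.Steps` -/
theorem pieceSum : ∀ (F : H503.Form16) (X : H95.Ext), H183.IsClosedForm H503.Lg14 (8 * 2) F →
    H728.ExtOf F X → PieceSum F X := by
  intro F X hF hX
  refine H92.pieceSum_of fun p q hp hq σ e => ?_
  rw [str_cells hF hX hp hq σ e]
  exact (Finset.sum_subtype _ (by simp)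
    (fun c => ∫ ζ in D0.Om (sm e) c, val X hp hq σ e c ζ)).symm

end Vale.Agent.P273.H728

end
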