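import Vale.Agent.P273.H728.Lab

/-!
# P273, LIM-V: the positions of the marks in the region of a cell
-/

noncomputable section

namespace Vale.Agent.P273.H728

open Set Sum H183 H837 H93 H95 H503 H732

theorem prod_le_eq (F : ℕ → ℂ) {n i : ℕ} (hi : i ≤ n) :
    (∏ g : Fin (n + 1), if (g : ℕ) ≤ i then F g else 1) = ∏ g ∈ Finset.range (i + 1), F g := by
  rw [Fin.prod_univ_eq_prod_range (fun g => if g ≤ i then F g else 1) (n + 1),
    ← Finset.prod_filter]
  refine Finset.prod_congr ?_ fun _ _ => rfl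
  ext g
  simp only [Finset.mem_filter, Finset.mem_range]
  omega

theorem prod_gt_eq (F : ℕ → ℂ) (n i : ℕ) :
    (∏ g : Fin (n + 1), if i < (g : ℕ) then F g else 1) = ∏ g ∈ Finset.Ico (i + 1) (n + 1), F g := by
  rw [Fin.prod_univ_eq_prod_range (fun g => if i < g then F g else 1) (n + 1),
    ← Finset.prod_filter]
  refine Finset.prod_congr ?_ fun _ _ => rfl
  ext g
  simp only [Finset.mem_filter, Finset.mem_range, Finset.mem_Ico]
  omega

section

variable {p q : ℕ} (hp : p ≤ q) (hq : q ≤ 6) (σ : Bool → Equiv.Perm (Fin 7)) (e : Bool → Bool)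
  (c : Cell) (ζ : Fin 8 → ℂ)

theorem rg_n (k : Fin 3) : (rg (Tc hp hq σ e c)).n k =
    nc e c.lo false k + 2 * len p q k + nc e c.lo true k := card_slot hp hq σ k

theorem nc_le (e : Bool → Bool) (loc : Bool → Option (Fin 3)) (z : Bool) (k : Fin 3) :
    nc e loc z k ≤ 2 := by
  unfold nc
  split_ifs <;> omega

/-- The value of the coordinate of the gap. -/
def gv (p q : ℕ) (e : Bool → Bool) (c : Cell) (ζ : Fin 8 → ℂ) (k : Fin 3) (g : ℕ) : ℂ :=
  (gi p q e c k g).elim 0 ζ

theorem cb_eq {z : Bool} {k : Fin 3} {i : ℕ} {b : Bool} (h1 : c.lo b = some k) (h2 : e b = z)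
    (h3 : ic e c.lo (c.oo e) b = i) : cb e c z k i = b := by
  unfold cb
  cases b
  · rw [decide_eq_false_iff_not]
    rintro ⟨h4, h5, h6⟩
    have := ic_ne (e := e) (loc := c.lo) (o := c.oo e) (b := false) (h4.trans h1.symm)
      (h5.trans h2.symm)
    exact this (h3.trans h6.symm)
  · rw [decide_eq_true_eq]
    exact ⟨h1, h2, h3⟩

theorem gv_P {k : Fin 3} {b : Bool} (h1 : c.lo b = some k) (h2 : e b = false) :
    gv p q e c ζ k (ic e c.lo (c.oo e) b) = ζ (cf b) := by
  have h3 := ic_lt (e := e) (o := c.oo e) h1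
  rw [h2] at h3
  rw [gv, gi, if_pos h3, cb_eq e c h1 h2 rfl]
  rfl

theorem gv_Q {k : Fin 3} {b : Bool} (h1 : c.lo b = some k) (h2 : e b = true) :
    gv p q e c ζ k (nc e c.lo false k + 2 * len p q k + ic e c.lo (c.oo e) b + 1) = ζ (cf b) := by
  rw [gv, gi, if_neg (by omega), if_neg (by omega)]
  have h4 : nc e c.lo false k + 2 * len p q k + ic e c.lo (c.oo e) b + 1 - nc e c.lo false k -
      2 * len p q k - 1 = ic e c.lo (c.oo e) b := by omega
  rw [h4, cb_eq e c h1 h2 rfl]
  rfl

theorem gv_B {k : Fin 3} {r : ℕ} (hr : r ≤ len p q k) :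
    gv p q e c ζ k (nc e c.lo false k + 2 * r) = 0 := by
  rw [gv, gi, if_neg (by omega), if_pos (by omega), if_pos (by omega)]
  rfl

theorem gv_t {t : ℕ} (ht : t < 6) (hp : p ≤ q) (hq : q ≤ 6) :
    gv p q e c ζ (ch p q t) (nc e c.lo false (ch p q t) + 2 * (t - off p q (ch p q t)) + 1) =
      ζ (Fin.ofNat 8 t) := by
  have h1 := off_le hp hq ht
  rw [gv, gi, if_neg (by omega), if_pos (by omega), if_neg (by omega)]
  have h4 : off p q (ch p q t) + (nc e c.lo false (ch p q t) + 2 * (t - off p q (ch p q t)) + 1 -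
      nc e c.lo false (ch p q t) - 1) / 2 = t := by omega
  rw [h4]
  rfl

/-- The mark `b` is in one group with the other core mark, which is nearer to the core. -/
def mu (e : Bool → Bool) (c : Cell) (b : Bool) : Prop := c.Same (sm e) ∧ c.ord = !b

instance (b : Bool) : Decidable (mu e c b) := by unfold mu; infer_instance

/-- The position of the core mark of type `b` in the plane. -/
def xx (e : Bool → Bool) (c : Cell) (b : Bool) (ζ : Fin 8 → ℂ) : ℂ :=
  D0.place (c.loc b) (if mu e c b then ζ (cf (!b)) * ζ (cf b) else ζ (cf b))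

theorem xA_eq : D0.xA (sm e) c ζ = xx e c true ζ := by
  unfold TD.xA xx mu
  simp [cf]

theorem xB_eq : D0.xB (sm e) c ζ = xx e c false ζ := by
  unfold TD.xB xx mu
  simp [cf]

theorem lo_none {b : Bool} : c.lo b = none ↔ ∃ z, c.loc b = inl z := by
  unfold Cell.lo Zone.nk
  rcases c.loc b with z | k <;> simp

theorem lo_some {b : Bool} {k : Fin 3} : c.lo b = some k ↔ c.loc b = inr k := by
  unfold Cell.lo Zone.nk
  rcases c.loc b with z | k' <;> simp

theorem same_iff {b : Bool} {k : Fin 3} (h : c.loc b = inr k) :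
    c.Same (sm e) ↔ c.lo (!b) = c.lo b ∧ e (!b) = e b := by
  have h1 : c.lo b = some k := (lo_some c).2 h
  unfold Cell.Same sm
  rw [decide_eq_true_eq, h1, lo_some c]
  cases b
  · constructor
    · rintro ⟨h2, h3, h4⟩
      exact ⟨h3.trans h, h2⟩
    · rintro ⟨h2, h3⟩
      exact ⟨h3, h2.trans h.symm, by rw [show c.loc true = inr k from h2]; rfl⟩
  · constructor
    · rintro ⟨h2, h3, h4⟩
      exact ⟨h3.symm.trans h, h2.symm⟩
    · rintro ⟨h2, h3⟩
      exact ⟨h3.symm, h.trans h2.symm, by rw [h]; rfl⟩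

theorem ic_P {b : Bool} {k : Fin 3} (h : c.loc b = inr k) (he : e b = false) :
    ic e c.lo (c.oo e) b = if mu e c b then 1 else 0 := by
  have h1 := same_iff e c h
  unfold ic
  by_cases hs : c.Same (sm e)
  · unfold mu
    have h2 := h1.1 hs
    have h3 : c.oo e = c.ord := by
      unfold Cell.oo
      rw [if_pos hs]
      have : e true = false := by
        cases b
        · exact h2.2.trans he
        · exact he
      rw [this]; simp
    rw [h3]
    simp only [h2, hs, true_and]
    cases c.ord <;> cases b <;> simp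
  · rw [if_neg (fun h => hs (h1.2 ⟨h.1, h.2.1⟩)), if_neg (fun h => hs h.1)]

theorem ic_Q {b : Bool} {k : Fin 3} (h : c.loc b = inr k) (he : e b = true)
    (hs : c.Same (sm e)) : ic e c.lo (c.oo e) b = if mu e c b then 0 else 1 := by
  have h1 := same_iff e c h
  have h2 := h1.1 hs
  unfold ic mu
  have h3 : c.oo e = !c.ord := by
    unfold Cell.oo
    rw [if_pos hs]
    have : e true = true := by
      cases b
      · exact h2.2.trans he
      · exact he
    rw [this]; simp
  rw [h3]
  simp only [h2, hs, true_and]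
  cases c.ord <;> cases b <;> simp

theorem nc_two {b : Bool} {k : Fin 3} (h : c.loc b = inr k) (hs : c.Same (sm e)) :
    nc e c.lo (e b) k = 2 := by
  have h2 := (same_iff e c h).1 hs
  have h1 : c.lo b = some k := (lo_some c).2 h
  unfold nc
  cases b
  · have h3 : c.lo true = some k := h2.1.trans h1
    have h4 : e true = e false := h2.2
    rw [if_pos ⟨h3, h4⟩, if_pos ⟨h1, rfl⟩]
  · have h3 : c.lo false = some k := h2.1.trans h1
    have h4 : e false = e true := h2.2
    rw [if_pos ⟨h1, rfl⟩, if_pos ⟨h3, h4⟩]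

theorem nc_one {b : Bool} {k : Fin 3} (h : c.loc b = inr k) (hs : ¬ c.Same (sm e)) :
    nc e c.lo (e b) k = 1 := by
  have h2 : ¬ (c.lo (!b) = c.lo b ∧ e (!b) = e b) := fun h' => hs ((same_iff e c h).2 h')
  have h1 : c.lo b = some k := (lo_some c).2 h
  rw [h1] at h2
  unfold nc
  cases b
  · have h3 : ¬ (c.lo true = some k ∧ e true = e false) := h2
    rw [if_neg h3, if_pos ⟨h1, rfl⟩]
  · have h3 : ¬ (c.lo false = some k ∧ e false = e true) := h2
    rw [if_pos ⟨h1, rfl⟩, if_neg h3]

theorem mu_not {b : Bool} (h : mu e c b) : ¬ mu e c (!b) := by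
  rintro ⟨-, h2⟩
  have h1 := h.2
  rw [h1] at h2
  cases b <;> simp at h2

/-- The product of the gaps on the side of P. -/
theorem XX_P {b : Bool} {k : Fin 3} (h : c.loc b = inr k) (he : e b = false) :
    ∏ g ∈ Finset.range (ic e c.lo (c.oo e) b + 1), gv p q e c ζ k g =
      if mu e c b then ζ (cf (!b)) * ζ (cf b) else ζ (cf b) := by
  have h1 : c.lo b = some k := (lo_some c).2 h
  have h3 := gv_P (p := p) (q := q) e c ζ h1 he
  rw [Finset.prod_range_succ, h3, ic_P e c h he]
  by_cases hm : mu e c b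
  · rw [if_pos hm, if_pos hm, Finset.prod_range_one]
    have h4 := (same_iff e c h).1 hm.1
    have h5 : c.loc (!b) = inr k := (lo_some c).1 (h4.1.trans h1)
    have h6 : e (!b) = false := h4.2.trans he
    have h7 := gv_P (p := p) (q := q) e c ζ (h4.1.trans h1) h6
    rw [ic_P e c h5 h6, if_neg (mu_not e c hm)] at h7
    rw [h7]
  · rw [if_neg hm, if_neg hm, Finset.prod_range_zero, one_mul]

/-- The product of the gaps on the side of P'. -/
theorem YY_Q {b : Bool} {k : Fin 3} (h : c.loc b = inr k) (he : e b = true) :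
    ∏ g ∈ Finset.Ico (nc e c.lo false k + 2 * len p q k + ic e c.lo (c.oo e) b + 1)
      (nc e c.lo false k + 2 * len p q k + nc e c.lo true k + 1), gv p q e c ζ k g =
      if mu e c b then ζ (cf (!b)) * ζ (cf b) else ζ (cf b) := by
  have h1 : c.lo b = some k := (lo_some c).2 h
  have h3 := gv_Q (p := p) (q := q) e c ζ h1 he
  by_cases hs : c.Same (sm e)
  · have h2 := nc_two e c h hs
    rw [he] at h2
    have h4 := (same_iff e c h).1 hs
    have h5 : c.loc (!b) = inr k := (lo_some c).1 (h4.1.trans h1)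
    have h6 : e (!b) = true := h4.2.trans he
    rw [ic_Q e c h he hs] at h3 ⊢
    rw [h2]
    by_cases hm : mu e c b
    · rw [if_pos hm] at h3 ⊢
      rw [if_pos hm]
      have h7 := gv_Q (p := p) (q := q) e c ζ (h4.1.trans h1) h6
      rw [ic_Q e c h5 h6 hs, if_neg (mu_not e c hm)] at h7
      rw [Finset.prod_Ico_succ_top (by omega), Finset.prod_Ico_succ_top (by omega),
        Finset.Ico_self, Finset.prod_empty, one_mul]
      have e1 : nc e c.lo false k + 2 * len p q k + 2 =
        nc e c.lo false k + 2 * len p q k + 1 + 1 := rfl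
      rw [e1, h7]
      have e2 : nc e c.lo false k + 2 * len p q k + 1 =
        nc e c.lo false k + 2 * len p q k + 0 + 1 := rfl
      rw [e2, h3, mul_comm]
    · rw [if_neg hm] at h3 ⊢
      rw [if_neg hm, Finset.prod_Ico_succ_top (by omega), Finset.Ico_self, Finset.prod_empty,
        one_mul]
      exact h3
  · have h2 := nc_one e c h hs
    rw [he] at h2
    have h4 : ic e c.lo (c.oo e) b = 0 := by
      have := ic_lt (e := e) (o := c.oo e) h1
      rw [he, h2] at this
      omega
    rw [h4] at h3 ⊢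
    rw [h2, if_neg (fun hm => hs hm.1), Finset.prod_Ico_succ_top (by omega), Finset.Ico_self,
      Finset.prod_empty, one_mul]
    exact h3

theorem iot_gap (k : Fin 3) (g : Fin ((rg (Tc hp hq σ e c)).n k + 1)) :
    (iot hp hq σ e c ζ).1 ⟨k, g⟩ = gv p q e c ζ k g := iot_fst hp hq σ e c ζ ⟨k, g⟩

/-- **The positions of the core marks in the necks.** -/
theorem pos_neckc {x : Mk} {k : Fin 3} (hx : ¬ (σ x.2 x.1).1 < 6) (h : c.loc x.2 = inr k) :
    (rg (Tc hp hq σ e c)).pos (scl _ (iot hp hq σ e c ζ)) x = xx e c x.2 ζ := by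
  have h1 : c.lo x.2 = some k := (lo_some c).2 h
  have hpl : (rg (Tc hp hq σ e c)).pl x = inl k := pl0_some hx h1
  have hrk : (rg (Tc hp hq σ e c)).rk x = (if e x.2 = true then
      nc e c.lo false k + 2 * len p q k else 0) + ic e c.lo (c.oo e) x.2 := rk0_some hx h1
  have hlt := (rg (Tc hp hq σ e c)).rk_lt x k hpl
  have hlt' : (rg (Tc hp hq σ e c)).rk x < (rg (Tc hp hq σ e c)).n k := hlt
  have hic := ic_lt (e := e) (o := c.oo e) h1
  rw [pos_neck _ _ hpl, XX_scl _ _ _ hlt', YY_scl _ _ _ hlt']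
  simp only [iot_gap]
  rw [prod_le_eq (fun g => gv p q e c ζ k g) hlt'.le, prod_gt_eq (fun g => gv p q e c ζ k g)]
  have hxx : xx e c x.2 ζ = ctr k + (1 / 32 : ℝ) *
      (if mu e c x.2 then ζ (cf (!x.2)) * ζ (cf x.2) else ζ (cf x.2)) := by
    unfold xx
    rw [h]
    rfl
  rw [hxx]
  rcases he : e x.2 with _ | _
  · rw [he] at hic
    have hr : (rg (Tc hp hq σ e c)).rk x = ic e c.lo (c.oo e) x.2 := by
      rw [hrk, he]; simp
    have h0 : ∏ g ∈ Finset.Ico ((rg (Tc hp hq σ e c)).rk x + 1)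
        ((rg (Tc hp hq σ e c)).n k + 1), gv p q e c ζ k g = 0 := by
      refine Finset.prod_eq_zero (i := nc e c.lo false k + 2 * 0) ?_ (gv_B e c ζ (Nat.zero_le _))
      rw [Finset.mem_Ico, rg_n, hr]
      omega
    rw [h0, hr, XX_P e c ζ h he]
    push_cast
    ring
  · rw [he] at hic
    have hr : (rg (Tc hp hq σ e c)).rk x = nc e c.lo false k + 2 * len p q k +
        ic e c.lo (c.oo e) x.2 := by
      rw [hrk, he]; simp
    have h0 : ∏ g ∈ Finset.range ((rg (Tc hp hq σ e c)).rk x + 1), gv p q e c ζ k g = 0 := by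
      refine Finset.prod_eq_zero (i := nc e c.lo false k + 2 * 0) ?_ (gv_B e c ζ (Nat.zero_le _))
      rw [Finset.mem_range, hr]
      omega
    rw [h0, hr, rg_n, YY_Q e c ζ h he]
    push_cast
    ring

theorem comp_core {x : Mk} (hx : ¬ (σ x.2 x.1).1 < 6) :
    (Tc hp hq σ e c).comp x = inl (e x.2) := enc_comp_six hp hq σ hx

/-- **The positions of the core marks.** -/
theorem mz_core {x : Mk} (hx : ¬ (σ x.2 x.1).1 < 6) (h0 : c.loc x.2 = inl true → ζ (cf x.2) ≠ 0) :
    mz (Tc hp hq σ e c) (Sc σ c) (scl _ (iot hp hq σ e c ζ)) x = ((xx e c x.2 ζ : ℂ) : OnePoint ℂ) := by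
  have h6 : σ x.2 x.1 = 6 := Fin.ext (by change (σ x.2 x.1).1 = 6; omega)
  unfold mz
  rw [comp_core hp hq σ e c hx]
  simp only
  rcases h : c.loc x.2 with z | k
  · have h1 : c.lo x.2 = none := (lo_none c).2 ⟨z, h⟩
    have hpl : (rg (Tc hp hq σ e c)).pl x = inr (e x.2) := pl0_none hx h1
    have hm : ¬ mu e c x.2 := by
      intro hm
      have h2 := hm.1.2
      rcases hb : x.2 with _ | _
      · rw [hb] at h
        rw [h] at h2
        rw [h2.1] at h2
        exact absurd h2.2 (by simp)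
      · rw [hb] at h
        rw [h] at h2
        exact absurd h2.2 (by simp)
    have hpos : (rg (Tc hp hq σ e c)).pos (scl _ (iot hp hq σ e c ζ)) x = ζ (cf x.2) := by
      rw [pos_core _ _ hpl, scl_apply]
      rfl
    rw [hpos]
    unfold xx
    rw [if_neg hm, h]
    rcases z with _ | _
    · have hS : Sc σ c x = false := by
        unfold Sc
        rw [decide_eq_false_iff_not]
        rintro ⟨-, h3⟩
        rw [h] at h3
        simp at h3
      rw [hS]
      rfl
    · have hS : Sc σ c x = true := by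
        unfold Sc
        rw [decide_eq_true_eq]
        exact ⟨h6, h⟩
      rw [hS]
      simp only [if_true]
      unfold inf
      rw [if_neg (h0 h)]
      rfl
  · have hS : Sc σ c x = false := by
      unfold Sc
      rw [decide_eq_false_iff_not]
      rintro ⟨-, h3⟩
      rw [h] at h3
      simp at h3
    rw [hS, pos_neckc hp hq σ e c ζ hx h]
    rfl

/-- **The positions of the marks of the clusters.** -/
theorem mz_free {x : Mk} (hx : (σ x.2 x.1).1 < 6) :
    mz (Tc hp hq σ e c) (Sc σ c) (scl _ (iot hp hq σ e c ζ)) x =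
      ((if c.bit (Fin.ofNat 6 (σ x.2 x.1).1) = x.2 then 1 else ζ (Fin.ofNat 8 (σ x.2 x.1).1) : ℂ) :
        OnePoint ℂ) := by
  have h1 := off_le hp hq hx
  have hrk : (Tc hp hq σ e c).rk x = nc e c.lo false (ch p q (σ x.2 x.1)) +
      2 * ((σ x.2 x.1).1 - off p q (ch p q (σ x.2 x.1))) +
      (if c.bit (Fin.ofNat 6 (σ x.2 x.1).1) = x.2 then 0 else 1) := rk0_lt hx
  have hB : ∀ b, b ∈ (Tc hp hq σ e c).B (ch p q (σ x.2 x.1)) ↔ ∃ r ≤ len p q (ch p q (σ x.2 x.1)),
      nc e c.lo false (ch p q (σ x.2 x.1)) + 2 * r = b := by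
    intro b
    rw [Tc, enc_B, Finset.mem_image]
    simp only [Finset.mem_range, Nat.lt_succ_iff]
  have hβ : nc e c.lo false (ch p q (σ x.2 x.1)) +
      2 * ((σ x.2 x.1).1 - off p q (ch p q (σ x.2 x.1))) ∈
      (Tc hp hq σ e c).B (ch p q (σ x.2 x.1)) := (hB _).2 ⟨_, by omega, rfl⟩
  have hn := rg_n hp hq σ e c (ch p q (σ x.2 x.1))
  unfold mz
  rw [show (Tc hp hq σ e c).comp x = _ from enc_comp_lt hp hq σ hx]
  simp only
  congr 1
  by_cases hb : c.bit (Fin.ofNat 6 (σ x.2 x.1).1) = x.2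
  · rw [if_pos hb] at hrk ⊢
    refine Finset.prod_eq_one fun g _ => if_neg ?_
    rintro ⟨h2, h3⟩
    have := h3 _ hβ (by omega)
    omega
  · rw [if_neg hb] at hrk ⊢
    have hg : nc e c.lo false (ch p q (σ x.2 x.1)) +
      2 * ((σ x.2 x.1).1 - off p q (ch p q (σ x.2 x.1))) + 1 <
        (rg (Tc hp hq σ e c)).n (ch p q (σ x.2 x.1)) := by omega
    rw [Finset.prod_eq_single (⟨nc e c.lo false (ch p q (σ x.2 x.1)) +
      2 * ((σ x.2 x.1).1 - off p q (ch p q (σ x.2 x.1))) + 1, by omega⟩ :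
        Fin ((rg (Tc hp hq σ e c)).n (ch p q (σ x.2 x.1)) + 1))]
    · rw [if_pos]
      · rw [scl_apply]
        change cw _ _ * (iot hp hq σ e c ζ).1 _ = _
        rw [iot_gap, gv_t e c ζ hx hp hq]
        unfold cw
        rw [if_neg, if_neg]
        · ring
        · change ¬ (nc e c.lo false (ch p q (σ x.2 x.1)) +
            2 * ((σ x.2 x.1).1 - off p q (ch p q (σ x.2 x.1))) + 1 =
              (rg (Tc hp hq σ e c)).n (ch p q (σ x.2 x.1)))
          omega
        · change ¬ (nc e c.lo false (ch p q (σ x.2 x.1)) +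
            2 * ((σ x.2 x.1).1 - off p q (ch p q (σ x.2 x.1))) + 1 = 0)
          omega
      · refine ⟨by rw [hrk], fun b hb2 hb3 => ?_⟩
        obtain ⟨r, hr, rfl⟩ := (hB b).1 hb2
        change _ < nc e c.lo false (ch p q (σ x.2 x.1)) +
            2 * ((σ x.2 x.1).1 - off p q (ch p q (σ x.2 x.1))) + 1
        omega
    · intro g _ hg2
      refine if_neg ?_
      rintro ⟨h2, h3⟩
      have h4 := h3 _ hβ (by omega)
      apply hg2
      apply Fin.ext
      change g.1 = nc e c.lo false (ch p q (σ x.2 x.1)) +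
            2 * ((σ x.2 x.1).1 - off p q (ch p q (σ x.2 x.1))) + 1
      omega
    · intro h
      exact absurd (Finset.mem_univ _) h

end

end Vale.Agent.P273.H728

end
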